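import Mathlib

/-! Abelian subcategories of finite length in a triangulated category of Calabi-Yau dimension two:
basic facts. -/

set_option linter.unusedSectionVars false
set_option backward.defeqAttrib.useBackward true
set_option backward.isDefEq.respectTransparency false

namespace Vale.Agent.P287T.Sw

open CategoryTheory Limits Pretriangulated Module

universe v u

variable {C : Type u} [Category.{v} C] [Preadditive C] [Linear ℂ C] [HasZeroObject C] [HasShift C ℤ]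
  [∀ n : ℤ, (shiftFunctor C n).Additive] [Pretriangulated C]

/-- distinguished triangles -/
abbrev Dt {X Y Z : C} (f : X ⟶ Y) (g : Y ⟶ Z) (δ : Z ⟶ X⟦(1 : ℤ)⟧) : Prop :=
  Triangle.mk f g δ ∈ distTriang C

/-- `X ⟶ Y ⟶ Z` is part of a distinguished triangle -/
def Tr (X Y Z : C) : Prop := ∃ (f : X ⟶ Y) (g : Y ⟶ Z) (δ : Z ⟶ X⟦(1 : ℤ)⟧), Dt f g δ

/-- dimension of `Hom` -/
noncomputable abbrev h0 (X Y : C) : ℕ := finrank ℂ (X ⟶ Y)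

/-- dimension of `Ext¹` -/
noncomputable abbrev h1 (X Y : C) : ℕ := finrank ℂ (X ⟶ Y⟦(1 : ℤ)⟧)

/-- no maps -/
def Orth (X Y : C) : Prop := ∀ f : X ⟶ Y, f = 0

/-- an extension closed abelian subcategory -/
structure Ab (P : C → Prop) : Prop where
  zero : ∀ {X : C}, IsZero X → P X
  ext : ∀ {X Y Z : C}, Tr X Y Z → P X → P Z → P Y
  neg : ∀ {X Y : C}, P X → P Y → Orth (X⟦(1 : ℤ)⟧) Y
  fac : ∀ {X Y : C}, P X → P Y → ∀ f : X ⟶ Y, ∃ (K I Q : C) (k : K ⟶ X) (p : X ⟶ I) (j : I ⟶ Y)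
    (q : Y ⟶ Q) (δ : I ⟶ K⟦(1 : ℤ)⟧) (δ' : Q ⟶ I⟦(1 : ℤ)⟧),
      Dt k p δ ∧ Dt j q δ' ∧ P K ∧ P I ∧ P Q ∧ p ≫ j = f

section tri

variable {X Y Z W : C} {f : X ⟶ Y} {g : Y ⟶ Z} {δ : Z ⟶ X⟦(1 : ℤ)⟧}

theorem Dt.tr (h : Dt f g δ) : Tr X Y Z := ⟨f, g, δ, h⟩

theorem Dt.fg (h : Dt f g δ) : f ≫ g = 0 := comp_distTriang_mor_zero₁₂ _ h

theorem Dt.gd (h : Dt f g δ) : g ≫ δ = 0 := comp_distTriang_mor_zero₂₃ _ h

theorem Dt.yon₂ (h : Dt f g δ) (a : Y ⟶ W) (ha : f ≫ a = 0) : ∃ b : Z ⟶ W, a = g ≫ b :=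
  Triangle.yoneda_exact₂ _ h a ha

theorem Dt.yon₃ (h : Dt f g δ) (a : Z ⟶ W) (ha : g ≫ a = 0) : ∃ b : X⟦(1 : ℤ)⟧ ⟶ W, a = δ ≫ b :=
  Triangle.yoneda_exact₃ _ h a ha

theorem Dt.coy₁ (h : Dt f g δ) (a : W ⟶ X⟦(1 : ℤ)⟧) (ha : a ≫ f⟦(1 : ℤ)⟧' = 0) :
    ∃ b : W ⟶ Z, a = b ≫ δ :=
  Triangle.coyoneda_exact₁ _ h a ha

theorem Dt.coy₂ (h : Dt f g δ) (a : W ⟶ Y) (ha : a ≫ g = 0) : ∃ b : W ⟶ X, a = b ≫ f :=
  Triangle.coyoneda_exact₂ _ h a ha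

theorem Dt.coy₃ (h : Dt f g δ) (a : W ⟶ Z) (ha : a ≫ δ = 0) : ∃ b : W ⟶ Y, a = b ≫ g :=
  Triangle.coyoneda_exact₃ _ h a ha

theorem Dt.isIso₁ (h : Dt f g δ) (z : IsZero Z) : IsIso f := (Triangle.isZero₃_iff_isIso₁ _ h).1 z

theorem Dt.isIso₂ (h : Dt f g δ) (z : IsZero X) : IsIso g := (Triangle.isZero₁_iff_isIso₂ _ h).1 z

theorem Dt.iso₁ (h : Dt f g δ) (e : W ≅ X) : Dt (e.hom ≫ f) g (δ ≫ e.inv⟦(1 : ℤ)⟧') :=
  isomorphic_distinguished _ h _ (Triangle.isoMk _ _ e (Iso.refl _) (Iso.refl _) (by simp) (by simp)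
    (by simp [← Functor.map_comp]))

theorem Dt.iso₂ (h : Dt f g δ) (e : Y ≅ W) : Dt (f ≫ e.hom) (e.inv ≫ g) δ :=
  isomorphic_distinguished _ h _ (Triangle.isoMk _ _ (Iso.refl _) e.symm (Iso.refl _) (by simp)
    (by simp) (by simp))

theorem Dt.iso₃ (h : Dt f g δ) (e : Z ≅ W) : Dt f (g ≫ e.hom) (e.inv ≫ δ) :=
  isomorphic_distinguished _ h _ (Triangle.isoMk _ _ (Iso.refl _) (Iso.refl _) e.symm (by simp)
    (by simp) (by simp))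

theorem Tr.iso₁ (h : Tr X Y Z) (e : W ≅ X) : Tr W Y Z := let ⟨_, _, _, t⟩ := h; (t.iso₁ e).tr

theorem Tr.iso₂ (h : Tr X Y Z) (e : Y ≅ W) : Tr X W Z := let ⟨_, _, _, t⟩ := h; (t.iso₂ e).tr

theorem Tr.iso₃ (h : Tr X Y Z) (e : Z ≅ W) : Tr X Y W := let ⟨_, _, _, t⟩ := h; (t.iso₃ e).tr

theorem Tr.nonempty₁ (h : Tr X Y Z) (z : IsZero Z) : Nonempty (X ≅ Y) :=
  let ⟨f, _, _, t⟩ := h; have := t.isIso₁ z; ⟨asIso f⟩

theorem Tr.nonempty₂ (h : Tr X Y Z) (z : IsZero X) : Nonempty (Y ≅ Z) :=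
  let ⟨_, g, _, t⟩ := h; have := t.isIso₂ z; ⟨asIso g⟩

open ZeroObject in
theorem tr_iso_zero (e : X ≅ Y) : Tr X Y (0 : C) :=
  Tr.iso₂ ⟨𝟙 X, 0, 0, contractible_distinguished X⟩ e

open ZeroObject in
theorem tr_zero_iso (e : X ≅ Y) : Tr (0 : C) X Y :=
  Tr.iso₃ ⟨0, 𝟙 X, 0, contractible_distinguished₁ X⟩ e

theorem Tr.orth_left (h : Tr X Y Z) (a : Orth X W) (b : Orth Z W) : Orth Y W := fun φ => by
  obtain ⟨f, g, δ, t⟩ := h
  obtain ⟨ψ, e⟩ := t.yon₂ φ (a _)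
  rw [e, b ψ, comp_zero]

theorem Tr.orth_right (h : Tr X Y Z) (a : Orth W X) (b : Orth W Z) : Orth W Y := fun φ => by
  obtain ⟨f, g, δ, t⟩ := h
  obtain ⟨ψ, e⟩ := t.coy₂ φ (b _)
  rw [e, a ψ, zero_comp]

theorem Orth.isZero (h : Orth X X) : IsZero X := (IsZero.iff_id_eq_zero X).2 (h _)

theorem Orth.h0 (h : Orth X Y) : h0 X Y = 0 :=
  have : Subsingleton (X ⟶ Y) := ⟨fun a b => (h a).trans (h b).symm⟩
  finrank_zero_of_subsingleton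

theorem Tr.oct₁ [IsTriangulated C] {A B : C} (h₁ : Tr X Y Z) (h₂ : Tr A X B) :
    ∃ R, Tr A Y R ∧ Tr B R Z := by
  obtain ⟨f, g, δ, h⟩ := h₁
  obtain ⟨f', g', δ', h'⟩ := h₂
  obtain ⟨R, g'', h'', t⟩ := distinguished_cocone_triangle (f' ≫ f)
  exact ⟨R, ⟨_, _, _, t⟩, ⟨_, _, _, (Triangulated.someOctahedron rfl h' h t).mem⟩⟩

theorem Tr.oct₂ [IsTriangulated C] {A B : C} (h₁ : Tr X Y Z) (h₂ : Tr A Z B) :
    ∃ G, Tr G Y B ∧ Tr X G A := by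
  obtain ⟨f, g, δ, h⟩ := h₁
  obtain ⟨f', g', δ', h'⟩ := h₂
  obtain ⟨G, f'', h'', t⟩ := distinguished_cocone_triangle₁ (g ≫ g')
  exact ⟨G, ⟨_, _, _, t⟩, ⟨_, _, _, (Triangulated.someOctahedron' rfl h h' t).mem⟩⟩

theorem Wall0_le {U V W : Type*} [AddCommGroup U] [AddCommGroup V] [AddCommGroup W] [Module ℂ U]
    [Module ℂ V] [Module ℂ W] [Module.Finite ℂ U] [Module.Finite ℂ V] [Module.Finite ℂ W]
    (a : U →ₗ[ℂ] V) (b : V →ₗ[ℂ] W) (h : ∀ x, b x = 0 → ∃ y, x = a y) :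
    finrank ℂ V ≤ finrank ℂ U + finrank ℂ W := by
  have e := b.finrank_range_add_finrank_ker
  have k : finrank ℂ b.ker ≤ finrank ℂ a.range :=
    Submodule.finrank_mono fun x hx => let ⟨y, hy⟩ := h x hx; ⟨y, hy.symm⟩
  have := a.finrank_range_le
  have := b.range.finrank_le
  omega

/-- **Mukai's lemma** -/
theorem mukai (fin : ∀ X Y : C, Module.Finite ℂ (X ⟶ Y)) (h : Tr X Y Z) (o : Orth X Z)
    (o' : Orth Z (X⟦(1 : ℤ)⟧⟦(1 : ℤ)⟧)) : h1 X X + h1 Z Z ≤ h1 Y Y := by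
  obtain ⟨f, g, δ, t⟩ := h
  let V : Submodule ℂ (((X ⟶ X⟦(1 : ℤ)⟧) × (Z ⟶ Z⟦(1 : ℤ)⟧)) × (Y ⟶ Y⟦(1 : ℤ)⟧)) :=
    { carrier := {x | f ≫ x.2 = x.1.1 ≫ f⟦(1 : ℤ)⟧' ∧ g ≫ x.1.2 = x.2 ≫ g⟦(1 : ℤ)⟧'}
      add_mem' := fun a b => ⟨by simp [a.1, b.1], by simp [a.2, b.2]⟩
      zero_mem' := ⟨by simp, by simp⟩
      smul_mem' := fun c x a => ⟨by simp [a.1], by simp [a.2]⟩ }
  have i : Function.Injective ((LinearMap.snd ℂ _ _).comp V.subtype) := by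
    refine (injective_iff_map_eq_zero _).2 fun x hx => ?_
    obtain ⟨⟨⟨a, c⟩, b⟩, u, w⟩ := x
    obtain rfl : b = 0 := hx
    obtain ⟨k, rfl⟩ := t.coy₁ a (by simpa using u.symm)
    obtain ⟨k', rfl⟩ := t.yon₃ c (by simpa using w)
    obtain ⟨k'', rfl⟩ := (shiftFunctor C (1 : ℤ)).map_surjective k'
    simp [o k, o k'']
  have s : Function.Surjective ((LinearMap.fst ℂ _ _).comp V.subtype) := by
    rintro ⟨a, c⟩
    obtain ⟨b, u, w⟩ := complete_distinguished_triangle_morphism₂ _ _ t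
      (Triangle.shift_distinguished _ t 1) a c ((o' _).trans (o' _).symm)
    exact ⟨⟨⟨⟨a, c⟩, -b⟩, by simpa [neg_eq_iff_eq_neg] using u, by simpa using w⟩, rfl⟩
  have := LinearMap.finrank_le_finrank_of_injective i
  have := LinearMap.finrank_le_finrank_of_surjective s
  rw [finrank_prod] at this
  unfold h1
  omega

end tri

namespace Ab

variable {P : C → Prop} (h : Ab P) {X Y Z W : C} {f : X ⟶ Y} {g : Y ⟶ Z} {δ : Z ⟶ X⟦(1 : ℤ)⟧}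
include h

theorem iso (e : X ≅ Y) (a : P X) : P Y := h.ext (tr_iso_zero e) a (h.zero (isZero_zero C))

theorem epi (t : Dt f g δ) (a : P X) (b : P W) {φ : Z ⟶ W} (e : g ≫ φ = 0) : φ = 0 := by
  obtain ⟨ψ, rfl⟩ := t.yon₃ φ e
  rw [h.neg a b ψ, comp_zero]

theorem mono (t : Dt f g δ) (a : P Z) (b : P W) {φ : W ⟶ X} (e : φ ≫ f = 0) : φ = 0 := by
  obtain ⟨ψ, r⟩ := t.coy₁ (φ⟦(1 : ℤ)⟧') (by rw [← Functor.map_comp, e, Functor.map_zero])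
  rw [h.neg b a ψ, zero_comp] at r
  exact (shiftFunctor C (1 : ℤ)).map_injective (r.trans (Functor.map_zero _ _ _).symm)

/-- a quotient of an extension is an extension of quotients -/
theorem qt_ext (t : Dt f g δ) (a : P X) (c : P Z) {A B : C} {i : A ⟶ Y} {π : Y ⟶ B}
    {ε : B ⟶ A⟦(1 : ℤ)⟧} (t' : Dt i π ε) (hA : P A) (hB : P B) :
    ∃ (K I K' Q : C) (p : X ⟶ I) (j : I ⟶ B), P K ∧ P I ∧ P K' ∧ P Q ∧ Tr K X I ∧ Tr K' Z Q ∧
      Tr I B Q ∧ p ≫ j = f ≫ π ∧ (∀ φ : X ⟶ X, φ ≫ p ≫ j = 0 → φ ≫ p = 0) ∧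
      (p = 0 → IsZero I) := by
  obtain ⟨K, I, Q, k, p, j, q, d, d', s, s', hK, hI, hQ, e⟩ := h.fac a hB (f ≫ π)
  obtain ⟨ρ, r⟩ := t.yon₂ (π ≫ q) (by rw [← Category.assoc, ← e, Category.assoc, s'.fg, comp_zero])
  obtain ⟨K', I', Q', k', p', j', q', _, _, w, w', hK', hI', hQ', e'⟩ := h.fac c hQ ρ
  have z : q' = 0 := h.epi s' hI hQ' (h.epi t' hA hQ' (by
    rw [← Category.assoc, r, ← e', Category.assoc, Category.assoc, w'.fg, comp_zero, comp_zero]))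
  have z' : IsZero Q' := (IsZero.iff_id_eq_zero _).2 (h.epi w' hI' hQ' (by rw [z, zero_comp]))
  have := w'.isIso₁ z'
  exact ⟨K, I, K', Q, p, j, hK, hI, hK', hQ, s.tr, w.tr.iso₃ (asIso j'), s'.tr, e,
    fun φ u => h.mono s' hQ a (by rw [Category.assoc, u]),
    fun u => (IsZero.iff_id_eq_zero _).2 (h.epi s hK hI (by rw [u, zero_comp]))⟩

end Ab

/-- simple objects -/
def Smp (P : C → Prop) (S : C) : Prop :=
  P S ∧ ¬IsZero S ∧ ∀ A B, P A → P B → Tr A S B → IsZero A ∨ IsZero B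

namespace Smp

variable {P : C → Prop} {S T X : C} (s : Smp P S) (h : Ab P)
include s h

theorem sub (a : P X) {f : S ⟶ X} (hf : f ≠ 0) : ∃ Q g δ, P Q ∧ Dt (Z := Q) f g δ := by
  obtain ⟨K, I, Q, k, p, j, q, d, d', t, t', hK, hI, hQ, rfl⟩ := h.fac s.1 a f
  rcases s.2.2 _ _ hK hI t.tr with z | z
  · have := t.isIso₂ z
    exact ⟨Q, _, _, hQ, t'.iso₁ (asIso p)⟩
  · exact absurd (by rw [z.eq_of_src j 0, comp_zero]) hf

theorem quot (a : P X) {g : X ⟶ S} (hg : g ≠ 0) : ∃ K f δ, P K ∧ Dt (X := K) f g δ := by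
  obtain ⟨K, I, Q, k, p, j, q, d, d', t, t', hK, hI, hQ, rfl⟩ := h.fac a s.1 g
  rcases s.2.2 _ _ hI hQ t'.tr with z | z
  · exact absurd (by rw [z.eq_of_src j 0, comp_zero]) hg
  · have := t'.isIso₁ z
    exact ⟨K, _, _, hK, t.iso₃ (asIso j)⟩

theorem isIso (t : Smp P T) {f : S ⟶ T} (hf : f ≠ 0) : IsIso f := by
  obtain ⟨Q, g, δ, a, d⟩ := s.sub h t.1 hf
  exact d.isIso₁ ((t.2.2 _ _ s.1 a d.tr).resolve_left s.2.1)

theorem cases (t : Smp P T) : Nonempty (S ≅ T) ∨ Orth S T ∧ Orth T S := by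
  by_cases a : Orth S T
  · by_cases b : Orth T S
    · exact .inr ⟨a, b⟩
    · obtain ⟨f, hf⟩ := not_forall.1 b
      have := t.isIso h s hf
      exact .inl ⟨(asIso f).symm⟩
  · obtain ⟨f, hf⟩ := not_forall.1 a
    have := s.isIso h t hf
    exact .inl ⟨asIso f⟩

theorem h0_eq [Module.Finite ℂ (S ⟶ S)] : h0 S S = 1 :=
  finrank_endomorphism_eq_one ℂ fun f => ⟨fun _ e => s.2.1 ((IsZero.iff_id_eq_zero _).2
    ((IsIso.hom_inv_id f).symm.trans ((congrArg (· ≫ inv f) e).trans zero_comp))), s.isIso h s⟩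

end Smp

/-- iterated self-extensions -/
inductive Sx (S : C) : ℕ → C → Prop
  | zero (X : C) : IsZero X → Sx S 0 X
  | one (X : C) : (S ≅ X) → Sx S 1 X
  | ext (a b : ℕ) (X Y Z : C) : Tr X Y Z → Sx S a X → Sx S b Z → Sx S (a + b) Y

namespace Sx

variable {P : C → Prop} {S X W : C} {n : ℕ} (x : Sx S n X)
include x

theorem mem (h : Ab P) (s : P S) : P X := by
  induction x with
  | zero _ z => exact h.zero z
  | one _ e => exact h.iso e s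
  | ext _ _ _ _ _ t _ _ a b => exact h.ext t a b

theorem orth_left (o : Orth S W) : Orth X W := by
  induction x with
  | zero _ z => exact fun f => z.eq_of_src _ _
  | one _ e => exact fun f => by rw [← e.inv_hom_id_assoc f, o (e.hom ≫ f), comp_zero]
  | ext _ _ _ _ _ t _ _ a b => exact t.orth_left a b

theorem orth_right (o : Orth W S) : Orth W X := by
  induction x with
  | zero _ z => exact fun f => z.eq_of_tgt _ _
  | one _ e =>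
    intro f
    rw [← Category.comp_id f, ← e.inv_hom_id, ← Category.assoc, o (f ≫ e.inv), zero_comp]
  | ext _ _ _ _ _ t _ _ a b => exact t.orth_right a b

theorem iso (e : X ≅ W) : Sx S n W := .ext n 0 _ _ _ (tr_iso_zero e) x (.zero _ (isZero_zero C))

theorem quot (h : Ab P) (s : Smp P S) : ∀ {A B : C}, P A → P B → Tr A X B → ∃ j ≤ n, Sx S j B := by
  induction x with
  | zero _ z =>
    rintro A B a b ⟨f, g, δ, t⟩
    exact ⟨0, le_rfl, .zero _ ((IsZero.iff_id_eq_zero _).2 (h.epi t a b (z.eq_of_src _ _)))⟩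
  | one X e =>
    intro A B a b t
    rcases s.2.2 _ _ a b (t.iso₂ e.symm) with z | z
    · exact ⟨1, le_rfl, .one _ (e ≪≫ (t.nonempty₂ z).some)⟩
    · exact ⟨0, zero_le_one, .zero _ z⟩
  | ext a b X Y Z t x z ih ih' =>
    rintro A B hA hB ⟨i, π, ε, t'⟩
    obtain ⟨f, g, δ, t⟩ := t
    obtain ⟨K, I, K', Q, -, -, k, u, k', w, r, r', r'', -⟩ :=
      h.qt_ext t (x.mem h s.1) (z.mem h s.1) t' hA hB
    obtain ⟨j, hj, y⟩ := ih k u r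
    obtain ⟨j', hj', y'⟩ := ih' k' w r'
    exact ⟨j + j', add_le_add hj hj', .ext _ _ _ _ _ r'' y y'⟩

end Sx

end Vale.Agent.P287T.Sw
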