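import Vale.Agent.P287T.Sw.Ht0
import Vale.Agent.P287T.Sw.Wall0

/-! An object whose `Hom` complex to every member of a spanning family of simple objects of the top
phase is `ℂ[0]` lies in the heart and is torsion free. -/

set_option linter.unusedSectionVars false
set_option backward.defeqAttrib.useBackward true
set_option backward.isDefEq.respectTransparency false

namespace Vale.Agent.P287T.Sw

open CategoryTheory Limits Pretriangulated Module Vale.Agent.P294 Vale.Agent.P287T.Op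

universe v u

variable {C : Type u} [Category.{v} C] [Preadditive C] [Linear ℂ C] [HasZeroObject C] [HasShift C ℤ]
  [∀ n : ℤ, (shiftFunctor C n).Additive] [Pretriangulated C] [IsTriangulated C]

theorem Orth.iso_left {X X' Y : C} (o : Orth X Y) (e : X ≅ X') : Orth X' Y := fun f => by
  rw [← e.inv_hom_id_assoc f, o (e.hom ≫ f), comp_zero]

theorem Orth.iso_right {X Y Y' : C} (o : Orth X Y) (e : Y ≅ Y') : Orth X Y' := fun f => by
  rw [← Category.comp_id f, ← e.inv_hom_id, ← Category.assoc, o (f ≫ e.inv), zero_comp]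

theorem orth_shift {X Y : C} (n : ℤ) : Orth (X⟦n⟧) (Y⟦n⟧) ↔ Orth X Y :=
  ⟨fun o f => (shiftFunctor C n).map_injective ((o _).trans (Functor.map_zero _ _ _).symm),
    fun o g => by
      obtain ⟨f, rfl⟩ := (shiftFunctor C n).map_surjective g
      rw [o f, Functor.map_zero]⟩

theorem orth_sh {X Y : C} (n k l : ℤ) (h : k + n = l) : Orth (X⟦n⟧) (Y⟦l⟧) ↔ Orth X (Y⟦k⟧) :=
  ⟨fun o => (orth_shift n).1 (o.iso_right (shI Y k n l h).symm),
    fun o => ((orth_shift n).2 o).iso_right (shI Y k n l h)⟩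

theorem orth_zero {X Y : C} : Orth X (Y⟦(0 : ℤ)⟧) ↔ Orth X Y :=
  ⟨fun o => o.iso_right (sh0 Y), fun o => o.iso_right (sh0 Y).symm⟩

theorem orth_les₁ {X Y Z W : C} (t : A2bTr X Y Z) {k : ℤ} (a : Orth Y (W⟦k⟧))
    (b : Orth Z (W⟦k + 1⟧)) : Orth X (W⟦k⟧) :=
  Tr.orth_left (A2bTr.irot t) ((orth_sh (-1) (k + 1) k (by ring)).2 b) a

theorem orth_les₃ {X Y Z W : C} (t : A2bTr X Y Z) {k : ℤ} (a : Orth X (W⟦k - 1⟧))
    (b : Orth Y (W⟦k⟧)) : Orth Z (W⟦k⟧) :=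
  Tr.orth_left (A2bTr.rot t) b ((orth_sh 1 (k - 1) k (by ring)).2 a)

theorem orth_of_h0 {X Y : C} [Module.Finite ℂ (X ⟶ Y)] (h : h0 X Y = 0) : Orth X Y :=
  fun f => finrank_zero_iff_forall_zero.1 h f

theorem Lb_chain {U V : C → Prop} (h : ACC U V) {M : C → Prop}
    (st : ∀ B, M B → V B ∧ ∃ (B' : C) (g : B ⟶ B') (E : C), Cn g E ∧ U E ∧ ¬IsZero E ∧ M B')
    (B : C) : ¬M B := by
  intro hM
  have key : ∀ p : {B // M B}, ∃ (q : {B // M B}) (g : p.1 ⟶ q.1),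
      (∃ E, Cn g E ∧ U E) ∧ ¬IsIso g := by
    rintro ⟨B, a⟩
    obtain ⟨-, B', g, E, c, u, z, m⟩ := st B a
    exact ⟨⟨B', m⟩, g, ⟨E, c, u⟩, fun i => z (c.isIso.1 i)⟩
  choose nx g hg hn using key
  let Y : ℕ → {B // M B} := fun n => Nat.rec ⟨B, hM⟩ (fun _ p => nx p) n
  obtain ⟨n, hn'⟩ := h (fun n => (Y n).1) (fun n => g (Y n)) (fun n => (st _ (Y n).2).1)
    fun n => hg (Y n)
  exact hn _ hn'

/-- a spanning family `O` of simple objects of the top phase, `r X = χ (X, O q)` for every `q` -/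
structure Fam (U V : C → Prop) (y r : C → ℤ) {S : Type*} (O : S → C) : Prop where
  sim : ∀ q, Sim U V (O q)
  y0 : ∀ q, y (O q) = 0
  add : AddTri r
  r0 : ∀ q, r (O q) = 0
  fin : ∀ X Y : C, Module.Finite ℂ (X ⟶ Y)
  ser : ∀ q X, Orth (O q) X → Orth X ((O q)⟦(2 : ℤ)⟧)
  chi : ∀ q X, (∀ k : ℤ, k < 0 ∨ 2 < k → Orth X ((O q)⟦k⟧)) →
    r X = h0 X (O q) - h1 X (O q) + h0 X ((O q)⟦(2 : ℤ)⟧)
  span : ∀ X, (∀ q (k : ℤ), Orth X ((O q)⟦k⟧)) → IsZero X

/-- the `Hom` complex to every member of the family is `ℂ[0]` -/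
structure Lb {S : Type*} (O : S → C) (G : C) : Prop where
  van : ∀ q (k : ℤ), k ≠ 0 → Orth G ((O q)⟦k⟧)
  one : ∀ q, h0 G (O q) = 1

namespace Fam

variable {U V : C → Prop} {x y r : C → ℤ} {S : Type*} {O : S → C} (F : Fam U V y r O)
  (H : Hrt U V x y) {X Y G : C}
include F H

theorem lo {n k : ℤ} (a : U (X⟦n⟧)) (l : n + k < 0) (q : S) : Orth X ((O q)⟦k⟧) := fun f =>
  (H.ts.shifted n).hom a
    (H.ts.isoV (shI _ k n (k + n) rfl).symm (shV_le H.ts (by omega) (F.sim q).ht.2)) f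

theorem hi {m k : ℤ} (a : V (X⟦m⟧)) (l : 2 - k ≤ m) (q : S) : Orth X ((O q)⟦k⟧) :=
  (orth_sh (2 - k) k 2 (by ring)).1
    (F.ser q _ fun f => H.ts.hom (F.sim q).ht.1 (shV_le H.ts l a) f)

theorem lo₀ {k : ℤ} (a : U X) (l : k < 0) (q : S) : Orth X ((O q)⟦k⟧) :=
  F.lo H (H.ts.isoU (sh0 X).symm a) (by omega) q

theorem chi_ht (a : Ht U V X) (q : S) : r X = h0 X (O q) - h1 X (O q) + h0 X ((O q)⟦(2 : ℤ)⟧) :=
  F.chi q X fun _ hk => hk.elim (fun l => F.lo₀ H a.1 l q) fun l => F.hi H a.2 (by omega) q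

/-- dividing by a member of the family -/
theorem cone (a : V (Y⟦(-1 : ℤ)⟧)) {q : S} {f : O q ⟶ Y} (hf : f ≠ 0) :
    ∃ (R : C) (g : Y ⟶ R) (δ : R ⟶ (O q)⟦(1 : ℤ)⟧), Dt f g δ ∧ V (R⟦(-1 : ℤ)⟧) := by
  obtain ⟨A, B, i, p, d, t, hA, hB⟩ := H.ts.tri Y
  obtain ⟨f', rfl⟩ := Dt.coy₂ t f (H.ts.hom (F.sim q).ht.1 hB _)
  have hA' : Ht U V A := ⟨hA, (H.ts.shifted (-1)).ext1V t a (H.ts.shV (H.ts.shV hB))⟩
  obtain ⟨Q, g, e, t', hQ⟩ := (F.sim q).from H.ts hA' (f := f') fun z => hf (by rw [z, zero_comp])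
  obtain ⟨R, g', δ, t''⟩ := distinguished_cocone_triangle (f' ≫ i)
  exact ⟨R, g', δ, t'', (H.ts.shifted (-1)).extV (Triangulated.someOctahedron rfl t' t t'').mem
    hQ.2 (H.ts.shV hB)⟩

/-- the key lemma -/
theorem key (q : S) (a : V (Y⟦(-1 : ℤ)⟧)) (n : ∀ k : ℤ, k < 0 → Orth Y ((O q)⟦k⟧))
    (l : (h0 Y (O q) : ℤ) ≤ r Y) : Orth (O q) Y := by
  have := F.fin
  by_contra o
  refine Lb_chain H.acc (M := fun Y => V (Y⟦(-1 : ℤ)⟧) ∧ (∀ k : ℤ, k < 0 → Orth Y ((O q)⟦k⟧)) ∧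
    (h0 Y (O q) : ℤ) ≤ r Y ∧ ¬Orth (O q) Y) ?_ Y ⟨a, n, l, o⟩
  rintro Y ⟨a, n, l, o⟩
  obtain ⟨f, hf⟩ := not_forall.1 o
  obtain ⟨R, g, δ, t, b⟩ := F.cone H a hf
  have s := F.sim q
  have n' : ∀ k : ℤ, k < 0 → Orth R ((O q)⟦k⟧) := fun k hk =>
    orth_les₃ t.tr (F.lo₀ H s.ht.1 (by omega) q) (n k hk)
  have e : r Y = r R := by rw [addZ F.add t.tr, F.r0, zero_add]
  have i : Function.Injective (Linear.leftComp ℂ (O q) g) :=
    (injective_iff_map_eq_zero _).2 fun φ => epi H.ts t s.ht.1 s.ht.2 φ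
  have le : h0 R (O q) ≤ h0 Y (O q) := LinearMap.finrank_le_finrank_of_injective i
  have c := F.chi q R fun _ hk => hk.elim (n' _) fun l => F.hi H b (by omega) q
  refine ⟨a, R, g, _, Cc.cn ⟨f, δ, t⟩, H.ts.isoU (shiftShiftNeg _ (1 : ℤ)).symm s.ht.1,
    fun z => s.ne ((((shiftFunctor C (-1 : ℤ)).map_isZero z).of_iso
      (shiftShiftNeg _ (1 : ℤ)).symm)), b, n', by omega, fun o' => ?_⟩
  rw [(F.ser q R o').h0] at c
  by_cases z : δ = 0
  · have w : h0 R (O q) ≠ h0 Y (O q) := fun w => by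
      obtain ⟨ρ, hρ⟩ := Triangle.yoneda_exact₂ _ (inv_rot_of_distTriang _ t) (𝟙 (O q))
        (by simp [z])
      obtain ⟨ψ, rfl⟩ := (LinearMap.injective_iff_surjective_of_finrank_eq_finrank w).1 i ρ
      exact s.ne ((IsZero.iff_id_eq_zero _).2 (hρ.trans (by
        show f ≫ g ≫ ψ = 0
        rw [← Category.assoc, t.fg, zero_comp])))
    omega
  · have : 0 < h1 R (O q) := finrank_pos_iff_exists_ne_zero.2 ⟨δ, z⟩
    omega

/-- the key lemma with the spanning property -/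
theorem key₀ (a : V (Y⟦(-1 : ℤ)⟧)) (n : ∀ q (k : ℤ), k ≤ 0 → Orth Y ((O q)⟦k⟧)) (l : 0 ≤ r Y) :
    IsZero Y := by
  have := F.fin
  refine F.span Y fun q k => ?_
  have z := (orth_zero.1 (n q 0 le_rfl)).h0
  have o := F.ser q Y (F.key H q a (fun k hk => n q k hk.le) (by omega))
  have c := F.chi q Y fun k hk => hk.elim (fun l => n q k l.le) fun l => F.hi H a (by omega) q
  rw [o.h0] at c
  rcases lt_trichotomy k 1 with h | rfl | h
  · exact n q k (by omega)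
  · exact orth_of_h0 (by unfold h0 h1 at *; omega)
  rcases (show k = 2 ∨ 2 < k by omega) with rfl | h
  · exact o
  · exact F.hi H a (by omega) q

/-- an object with `Hom` complexes in degree zero -/
theorem deg₀ (n : ∀ q (k : ℤ), k ≠ 0 → Orth X ((O q)⟦k⟧)) (q : S) : r X = h0 X (O q) := by
  have c := F.chi q X fun k hk => n q k (by omega)
  rw [(n q 2 (by omega)).h0, show h1 X (O q) = 0 from (n q 1 (by omega)).h0] at c
  omega

theorem deg₀_zero (n : ∀ q (k : ℤ), k ≠ 0 → Orth X ((O q)⟦k⟧)) (l : r X ≤ 0) : IsZero X := by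
  have := F.fin
  refine F.span X fun q k => ?_
  by_cases h : k = 0
  · subst h
    exact orth_zero.2 (orth_of_h0 (by have := F.deg₀ H n q; omega))
  · exact n q k h

/-- (S1) -/
theorem r_nonpos (p : S) (a : P1 U V y X) : r X ≤ 0 := by
  refine H.jh (M := fun X => r X ≤ 0) (fun X z => (F.add.zeroG z).le)
    (fun T X Q s t a _ ih => ?_) X a
  rw [addZ F.add s.tr]
  have : r T ≤ 0 := by
    by_cases o : Orth T (O p)
    · by_cases o' : Orth (O p) T
      · have c := F.chi_ht H t.ht p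
        rw [o.h0, (F.ser p T o').h0] at c
        omega
      · obtain ⟨f, hf⟩ := not_forall.1 o'
        have := (F.sim p).schur H.ts t hf
        rw [← F.add.isoG (asIso f), F.r0]
    · obtain ⟨f, hf⟩ := not_forall.1 o
      have := t.schur H.ts (F.sim p) hf
      rw [F.add.isoG (asIso f), F.r0]
  omega

variable (L : Lb O G)
include L

theorem r_one (p : S) : r G = 1 := by rw [F.deg₀ H L.van p, L.one]; rfl

theorem lb_ge (p : S) : V (G⟦(-1 : ℤ)⟧) := by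
  have := F.fin
  obtain ⟨X, Y, f, g, d, t, a, b⟩ := (H.ts.shifted (-1)).tri G
  replace t : Dt f g d := t
  have lo : ∀ q (k : ℤ), k ≤ 0 → Orth X ((O q)⟦k⟧) := fun q k l => F.lo H a (by omega) q
  have hi : ∀ q (k : ℤ), 2 ≤ k → Orth X ((O q)⟦k⟧) := fun q k l =>
    orth_les₁ t.tr (L.van q k (by omega)) (F.hi H b (by omega) q)
  have z : IsZero X := F.span X fun q k => by
    rcases lt_trichotomy k 1 with h | rfl | h
    · exact lo q k (by omega)
    · refine orth_les₁ t.tr (L.van q 1 (by omega)) (F.ser q Y (F.key H q b (fun k hk =>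
        orth_les₃ t.tr (lo q _ (by omega)) (L.van q k hk.ne)) ?_))
      have c := F.chi q X fun k hk => hk.elim (fun l => lo q k l.le) fun l => hi q k l.le
      rw [(orth_zero.1 (lo q 0 le_rfl)).h0, (hi q 2 le_rfl).h0] at c
      have i : Function.Injective (Linear.leftComp ℂ (O q) g) :=
        (injective_iff_map_eq_zero _).2 fun φ e => by
          obtain ⟨ψ, rfl⟩ := t.yon₃ φ e
          rw [orth_zero.1 ((orth_sh 1 (-1) 0 rfl).2 (lo q _ (by omega))) ψ, comp_zero]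
      have le : h0 Y (O q) ≤ h0 G (O q) := LinearMap.finrank_le_finrank_of_injective i
      have := addZ F.add t.tr
      have := F.r_one H L p
      have := L.one q
      omega
    · exact hi q k h
  have := t.isIso₂ z
  exact (H.ts.shifted (-1)).isoV (asIso g).symm b

theorem lb_le : U (G⟦(1 : ℤ)⟧) := by
  obtain ⟨X, Y, f, g, d, t, a, b⟩ := (H.ts.shifted 1).tri G
  replace t : Dt f g d := t
  have n : ∀ q (k : ℤ), k ≠ 0 → Orth Y ((O q)⟦k⟧) := fun q k l => by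
    rcases lt_or_gt_of_ne l with h | h
    · exact orth_les₃ t.tr (F.lo H a (by omega) q) (L.van q k l)
    · exact F.hi H b (by omega) q
  have z : IsZero Y := by
    by_contra z
    obtain ⟨q, -⟩ := not_forall.1 fun w => z (F.span Y w)
    refine z (((shiftFunctor C (-2 : ℤ)).map_isZero (F.key₀ H (Y := Y⟦(2 : ℤ)⟧)
      (H.ts.isoV (shI Y 2 (-1) 1 rfl).symm b) (fun q k l =>
        (orth_sh 2 (k - 2) k (by ring)).2 (n q _ (by omega))) ?_)).of_iso
      (shiftShiftNeg Y (2 : ℤ)).symm)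
    rw [← F.add.isoG (shI Y 1 1 2 rfl), F.add.shiftG, F.add.shiftG, neg_neg, F.deg₀ H n q]
    omega
  have := t.isIso₁ z
  exact (H.ts.shifted 1).isoU (asIso f) a

/-- (S2) -/
theorem lb_ht (p : S) (hy : 0 < y G) : Ht U V G := by
  have u := F.lb_ge H L p
  have w := F.lb_le H L
  obtain ⟨A, Y, f, g, d, t, a, b⟩ := H.ts.tri G
  replace t : Dt f g d := t
  have b' : V (Y⟦(0 : ℤ)⟧) := H.ts.isoV (sh0 Y).symm b
  have b'' : V ((Y⟦(1 : ℤ)⟧)⟦(-1 : ℤ)⟧) := H.ts.isoV (shiftShiftNeg Y (1 : ℤ)).symm b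
  have n : ∀ q (k : ℤ), k ≠ 0 → Orth A ((O q)⟦k⟧) := fun q k l => by
    rcases lt_or_gt_of_ne l with h | h
    · exact F.lo₀ H a h q
    · exact orth_les₁ t.tr (L.van q k l) (F.hi H b' (by omega) q)
  by_cases l : r A ≤ 0
  · have := t.isIso₂ (F.deg₀_zero H n l)
    have := H.ypos _ ⟨w, (H.ts.isoV ((shiftFunctor C (-1 : ℤ)).mapIso
      ((shiftFunctor C (1 : ℤ)).mapIso (asIso g).symm)) b'')⟩
    rw [H.yadd.shiftG] at this
    omega
  · have z : IsZero (Y⟦(1 : ℤ)⟧) := F.key₀ H b'' (fun q k l => (orth_sh 1 (k - 1) k (by ring)).2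
      (orth_les₃ t.tr (F.lo₀ H a (by omega) q) (L.van q _ (by omega)))) (by
        have := addZ F.add t.tr
        have := F.r_one H L p
        rw [F.add.shiftG]
        omega)
    have := t.isIso₁ (((shiftFunctor C (-1 : ℤ)).map_isZero z).of_iso
      (shiftShiftNeg Y (1 : ℤ)).symm)
    exact ⟨H.ts.isoU (asIso f) a, u⟩

/-- (S3) -/
theorem sub_pos {A Q : C} (s : Ses U V A G Q) (z : ¬IsZero A) : 1 ≤ r A := by
  by_contra l
  refine H.noeth (M := fun Q => ∃ A, Ses U V A G Q ∧ ¬IsZero A ∧ r A ≤ 0) ?_ s.h3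
    ⟨A, s, z, by omega⟩
  rintro Q hQ ⟨A, s, z, l⟩
  have : ∃ q, ¬Orth (O q) Q := by
    by_contra n
    refine z (F.deg₀_zero H (fun q k hk => ?_) l)
    rcases lt_trichotomy k 1 with h | rfl | h
    · exact F.lo₀ H s.h1.1 (by omega) q
    · exact orth_les₁ s.tr (L.van q 1 hk) (F.ser q Q (not_not.1 fun w => n ⟨q, w⟩))
    · exact orth_les₁ s.tr (L.van q k hk) (F.hi H hQ.2 (by omega) q)
  obtain ⟨q, o⟩ := this
  obtain ⟨f, hf⟩ := not_forall.1 o
  obtain ⟨R, g, d, t, hR⟩ := (F.sim q).from H.ts hQ hf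
  have s' : Ses U V (O q) Q R := ⟨⟨_, _, _, t⟩, (F.sim q).ht, hR⟩
  obtain ⟨A', u, u'⟩ := s.quot_quot H.ts s'
  refine ⟨_, R, s', (F.sim q).ne, A', u, fun w => ?_, by rw [addZ F.add u'.tr, F.r0]; omega⟩
  obtain ⟨i, j, e, t'⟩ := u'.tr
  exact z ((IsZero.iff_id_eq_zero _).2 (mono H.ts t' u'.h3.2 s.h1.1 _ (w.eq_of_tgt _ _)))

theorem lb_tf (p : S) (a : Ht U V G) : TF U V y G := fun T hT f => by
  obtain ⟨K, I, Q, k, π, j, q, d, d', t, t', hK, hI, hQ, rfl⟩ := heart_factor H.ts hT.1 a f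
  have z : IsZero I := by
    by_contra z
    have := F.sub_pos H L ⟨⟨_, _, _, t'⟩, hI, hQ⟩ z
    have := F.r_nonpos H p (H.p1_quot ⟨⟨_, _, _, t⟩, hK, hI⟩ hT)
    omega
  rw [z.eq_of_src j 0, comp_zero]

/-- the kernel of `G ⟶ O p`: the starting object of the switch -/
theorem ideal (p : S) (hy : 0 < y G) : ∃ E, Ses U V E G (O p) ∧ TF U V y E ∧ r E = 1 ∧
    ∀ A Q, Ses U V A E Q → ¬IsZero A → 1 ≤ r A := by
  have a := F.lb_ht H L p hy
  have := F.fin G (O p)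
  obtain ⟨f, hf⟩ := (finrank_pos_iff_exists_ne_zero (R := ℂ) (M := G ⟶ O p)).1
    (by have := L.one p; unfold h0 at this; omega)
  obtain ⟨E, k, d, t, hE⟩ := (F.sim p).to H.ts a hf
  have s : Ses U V E G (O p) := ⟨⟨_, _, _, t⟩, hE, (F.sim p).ht⟩
  refine ⟨E, s, H.tf_sub s (F.lb_tf H L p a), ?_, fun A Q s' z => ?_⟩
  · have := addZ F.add s.tr
    have := F.r_one H L p
    have := F.r0 p
    omega
  · obtain ⟨R, u, -⟩ := s.sub_sub H.ts s'
    exact F.sub_pos H L u z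

end Fam

end Vale.Agent.P287T.Sw
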