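import Mathlib

/-!
# No numerical wall for a switch of isotropic classes

Lattice `A2 + ℤ o + ℤ n` with `o² = n² = 0`, `(o, n) = -1`; `(p1, p2)`, `(q1, q2)` are the pairings
of the basis of `A2` with `o` and `n`.
-/

namespace Vale.Agent.P287T.Sw

/-- three times the pairing of the projections to `A2` -/
def ip3 (p1 p2 q1 q2 : ℤ) : ℤ := 2 * p1 * q1 + p1 * q2 + p2 * q1 + 2 * p2 * q2

/-- nine times the Gram determinant of the two components orthogonal to `A2` -/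
def gram9 (p1 p2 q1 q2 : ℤ) : ℤ :=
  ip3 p1 p2 p1 p2 * ip3 q1 q2 q1 q2 - (3 + ip3 p1 p2 q1 q2) ^ 2

/-- `(p1, p2)` is the small class, `(q1, q2)` the big one -/
structure Far (p1 p2 q1 q2 : ℤ) : Prop where
  g1 : 6 * ip3 q1 q2 q1 q2 < gram9 p1 p2 q1 q2
  g2 : 24 * ip3 p1 p2 p1 p2 ≤ gram9 p1 p2 q1 q2
  r1 : 3 ≤ |q1|
  r2 : 3 ≤ |q2|
  r3 : 3 ≤ |q1 + q2|

lemma ip3_comm (p1 p2 q1 q2 : ℤ) : ip3 p1 p2 q1 q2 = ip3 q1 q2 p1 p2 := by unfold ip3; ring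

lemma gram9_comm (p1 p2 q1 q2 : ℤ) : gram9 p1 p2 q1 q2 = gram9 q1 q2 p1 p2 := by
  unfold gram9 ip3; ring

lemma ip3_nonneg (p1 p2 : ℤ) : 0 ≤ ip3 p1 p2 p1 p2 := by
  unfold ip3; nlinarith [sq_nonneg (p1 + p2), sq_nonneg p1, sq_nonneg p2]

lemma root_big {q1 q2 r1 r2 : ℤ} (h1 : 3 ≤ |q1|) (h2 : 3 ≤ |q2|) (h3 : 3 ≤ |q1 + q2|)
    (h : r1 ^ 2 - r1 * r2 + r2 ^ 2 = 1) : 3 ≤ |r1 * q1 + r2 * q2| := by
  have a1 : r1 ≤ 1 := by nlinarith [sq_nonneg (r1 - 2 * r2)]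
  have a2 : -1 ≤ r1 := by nlinarith [sq_nonneg (r1 - 2 * r2)]
  have a3 : r2 ≤ 1 := by nlinarith [sq_nonneg (2 * r1 - r2)]
  have a4 : -1 ≤ r2 := by nlinarith [sq_nonneg (2 * r1 - r2)]
  have e1 : |-q1| = |q1| := abs_neg _
  have e2 : |-q2| = |q2| := abs_neg _
  have e3 : |-q1 + -q2| = |q1 + q2| := by rw [← neg_add, abs_neg]
  interval_cases r1 <;> interval_cases r2 <;> simp_all

lemma two_div {j r : ℤ} (h : j * r = -2) : |j| ≤ 2 ∧ |r| ≤ 2 := by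
  have h1 : |j| * |r| = 2 := by rw [← abs_mul, h]; rfl
  have hj : 0 ≤ |j| := abs_nonneg _
  have hr : 0 ≤ |r| := abs_nonneg _
  have hj0 : |j| ≠ 0 := fun h0 => by rw [h0] at h1; omega
  have hr0 : |r| ≠ 0 := fun h0 => by rw [h0] at h1; omega
  constructor <;> nlinarith [lt_of_le_of_ne hj hj0.symm, lt_of_le_of_ne hr hr0.symm]

lemma caseA {j z ro rn : ℤ} {al ga la t : ℝ} (hga : ga = z - la) (h0 : 0 < la) (h1 : la < 1)
    (hwn : rn - j ≤ 0) (ht : t ≤ 0) (hE : al * ga = la * ((rn - j : ℤ) : ℝ) + t)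
    (he : j * ro + z * (rn - j) = -2) (ha : al ^ 2 < 1) (hg : 4 * ga ^ 2 ≤ 1)
    (hr : 3 ≤ |rn|) : False := by
  have ha1 : al < 1 := by nlinarith
  have ha2 : -1 < al := by nlinarith
  have hg1 : ga ≤ 1 / 2 := by nlinarith
  have hg2 : -(1 / 2) ≤ ga := by nlinarith
  have hz1 : z < 2 := by
    have : (z : ℝ) < 2 := by linarith
    exact_mod_cast this
  have hz2 : -1 < z := by
    have : (-1 : ℝ) < z := by linarith
    exact_mod_cast this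
  have key : (-1 : ℝ) < ((rn - j : ℤ) : ℝ) := by
    by_contra hc
    push Not at hc
    have h3 : la * ((rn - j : ℤ) : ℝ) ≤ -la := by nlinarith
    have hz : z = 0 ∨ z = 1 := by omega
    rcases hz with rfl | rfl
    · simp only [Int.cast_zero, zero_sub] at hga
      subst hga
      nlinarith
    · simp only [Int.cast_one] at hga
      have : 0 < ga := by linarith
      nlinarith
  have key2 : -1 < rn - j := by exact_mod_cast key
  have hj : j = rn := by omega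
  subst hj
  have := (two_div (j := j) (r := ro) (by simpa using he)).1
  omega

lemma caseB {j z ro rn : ℤ} {al ga la mu : ℝ} (hal : al = j - mu) (hga : ga = z - la)
    (h0 : 0 < la) (h1 : la < 1) (hwn : rn - j ≤ 0) (ht : mu * (ro - ga) ≤ 0)
    (hE : al * ga = la * ((rn - j : ℤ) : ℝ) + mu * (ro - ga))
    (he : j * ro + z * (rn - j) = -2) (ha : 4 * al ^ 2 ≤ 1) (hg : ga ^ 2 < 1)
    (hr : 3 ≤ |ro|) : False := by
  have ha1 : al ≤ 1 / 2 := by nlinarith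
  have ha2 : -(1 / 2) ≤ al := by nlinarith
  have hg1 : ga < 1 := by nlinarith
  have hg2 : -1 < ga := by nlinarith
  have hz1 : z < 2 := by
    have : (z : ℝ) < 2 := by linarith
    exact_mod_cast this
  have hz2 : -1 < z := by
    have : (-1 : ℝ) < z := by linarith
    exact_mod_cast this
  have hz : z = 0 ∨ z = 1 := by omega
  rcases hz with rfl | rfl
  · have := (two_div (j := j) (r := ro) (by simpa using he)).2
    omega
  · simp only [Int.cast_one] at hga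
    have hgp : 0 < ga := by linarith
    have hw : ((rn - j : ℤ) : ℝ) ≤ 0 := by exact_mod_cast hwn
    have h2 : la * ((rn - j : ℤ) : ℝ) ≤ 0 := by nlinarith
    have h3 : -(1 / 2) < mu * (ro - ga) := by nlinarith
    have hro : (3 : ℝ) ≤ ro ∨ (ro : ℝ) ≤ -3 := by
      rcases le_abs'.1 hr with h | h
      · right; exact_mod_cast h
      · left; exact_mod_cast h
    have hmu : -(1 / 4) < mu ∧ mu < 1 / 4 := by
      rcases hro with h | h
      · constructor <;> nlinarith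
      · constructor <;> nlinarith
    have hj1 : j < 1 := by
      have : (j : ℝ) < 1 := by linarith [hmu.2]
      exact_mod_cast this
    have hj2 : -1 < j := by
      have : (-1 : ℝ) < j := by linarith [hmu.1]
      exact_mod_cast this
    have hj : j = 0 := by omega
    subst hj
    have hrn : rn = -2 := by omega
    subst hrn
    simp only [Int.cast_zero, zero_sub] at hal
    have hm : mu = -al := by linarith
    subst hm
    push_cast at hE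
    have h5 : al * ro = -2 * la := by nlinarith
    rcases hro with h | h <;> nlinarith

lemma coef_le {P Q M a g T : ℝ} (h6 : 6 * T = P * a ^ 2 + 2 * M * a * g + Q * g ^ 2) :
    (P * Q - M ^ 2) * a ^ 2 ≤ 6 * T * Q := by
  rw [h6]; nlinarith [sq_nonneg (M * a + Q * g)]

lemma pos_of_coef {H P g T : ℝ} (hH : 0 < H) (hP : 0 < P) (hg : g ≠ 0)
    (h : H * g ^ 2 ≤ 6 * T * P) : 0 < T := by
  have a2 : 0 < H * g ^ 2 := by positivity
  by_contra hh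
  push Not at hh
  nlinarith

lemma sq_lt_of {H Q a T : ℝ} (hQ : 0 ≤ Q) (hT : T ≤ 1) (h : H * a ^ 2 ≤ 6 * T * Q)
    (g : 6 * Q < H) : a ^ 2 < 1 := by
  by_contra hh
  push Not at hh
  nlinarith

lemma sq_le_of {H Q a T : ℝ} (hH : 0 < H) (hQ : 0 ≤ Q) (hT : T ≤ 1) (h : H * a ^ 2 ≤ 6 * T * Q)
    (g : 24 * Q ≤ H) : 4 * a ^ 2 ≤ 1 := by
  by_contra hh
  push Not at hh
  nlinarith

lemma prod_gt {a g : ℝ} (h1 : a ^ 2 < 1) (h2 : 4 * g ^ 2 ≤ 1) : -1 < a * g := by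
  nlinarith [sq_nonneg (a + g)]

lemma sign_mu {mu c s P : ℝ} (hP : 0 < P) (hs : 0 ≤ s) (hc : mu * P = -s * c) : mu * c ≤ 0 := by
  by_contra hh
  push Not at hh
  have a1 : 0 < mu * c * P := mul_pos hh hP
  have a2 : mu * c * P = -(s * c ^ 2) := by linear_combination c * hc
  have a3 : 0 ≤ s * c ^ 2 := mul_nonneg hs (sq_nonneg _)
  linarith

lemma not_int {z : ℤ} {la : ℝ} (h0 : 0 < la) (h1 : la < 1) : (z : ℝ) - la ≠ 0 := by
  intro h
  have a1 : (0 : ℝ) < z := by linarith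
  have a2 : (z : ℝ) < 1 := by linarith
  have a3 : 0 < z := by exact_mod_cast a1
  have a4 : z < 1 := by exact_mod_cast a2
  omega

lemma eis_zero {r1 r2 : ℤ} (h : r1 ^ 2 - r1 * r2 + r2 ^ 2 = 0) : r1 = 0 ∧ r2 = 0 := by
  constructor <;> nlinarith [sq_nonneg (r1 - r2), sq_nonneg r1, sq_nonneg r2]

lemma eis_nonneg (r1 r2 : ℤ) : 0 ≤ r1 ^ 2 - r1 * r2 + r2 ^ 2 := by
  nlinarith [sq_nonneg (r1 - r2), sq_nonneg r1, sq_nonneg r2]

lemma ip3_pos {p1 p2 q1 q2 : ℤ} (hD : p1 * q2 - p2 * q1 ≠ 0) : 0 < ip3 p1 p2 p1 p2 := by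
  rcases (ip3_nonneg p1 p2).lt_or_eq with h | h
  · exact h
  · exfalso
    unfold ip3 at h
    have a1 : p1 = 0 := by nlinarith [sq_nonneg (p1 + p2), sq_nonneg p1, sq_nonneg p2]
    have a2 : p2 = 0 := by nlinarith [sq_nonneg (p1 + p2), sq_nonneg p1, sq_nonneg p2]
    exact hD (by simp [a1, a2])

lemma nowall_core {p1 p2 q1 q2 r1 r2 j z : ℤ} {la mu : ℝ}
    (hF : Far p1 p2 q1 q2 ∨ Far q1 q2 p1 p2) (hD : p1 * q2 - p2 * q1 ≠ 0)
    (h0 : 0 < la) (h1 : la < 1)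
    (e1 : 2 * (r1 : ℝ) - r2 + (j - mu) * p1 + (z - la) * q1 = 0)
    (e2 : -(r1 : ℝ) + 2 * r2 + (j - mu) * p2 + (z - la) * q2 = 0)
    (ht : mu * (((r1 * p1 + r2 * p2 : ℤ) : ℝ) - (z - la)) ≤ 0)
    (hwn : r1 * q1 + r2 * q2 - j ≤ 0)
    (hww : -1 ≤ r1 ^ 2 - r1 * r2 + r2 ^ 2 + j * (r1 * p1 + r2 * p2)
      + z * (r1 * q1 + r2 * q2 - j)) : False := by
  have hP : (0 : ℝ) < (ip3 p1 p2 p1 p2 : ℝ) := by exact_mod_cast ip3_pos hD
  have hQ : (0 : ℝ) ≤ (ip3 q1 q2 q1 q2 : ℝ) := by exact_mod_cast ip3_nonneg q1 q2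
  have hga0 : (z : ℝ) - la ≠ 0 := not_int h0 h1
  obtain ⟨al, hal⟩ : ∃ al : ℝ, al = j - mu := ⟨_, rfl⟩
  obtain ⟨ga, hga⟩ : ∃ ga : ℝ, ga = z - la := ⟨_, rfl⟩
  obtain ⟨ro, hro⟩ : ∃ ro : ℤ, ro = r1 * p1 + r2 * p2 := ⟨_, rfl⟩
  obtain ⟨rn, hrn⟩ : ∃ rn : ℤ, rn = r1 * q1 + r2 * q2 := ⟨_, rfl⟩
  obtain ⟨rh, hrh⟩ : ∃ rh : ℤ, rh = r1 ^ 2 - r1 * r2 + r2 ^ 2 := ⟨_, rfl⟩
  have hroR : (ro : ℝ) = r1 * p1 + r2 * p2 := by exact_mod_cast hro
  have hrnR : (rn : ℝ) = r1 * q1 + r2 * q2 := by exact_mod_cast hrn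
  have hrhR : (rh : ℝ) = r1 ^ 2 - r1 * r2 + r2 ^ 2 := by exact_mod_cast hrh
  rw [← hal, ← hga] at e1 e2
  rw [← hro, ← hrn, ← hrh] at hww
  rw [← hrn] at hwn
  rw [← hro, ← hga] at ht
  rw [← hga] at hga0
  obtain ⟨e, he⟩ : ∃ e : ℤ, e = rh + j * ro + z * (rn - j) := ⟨_, rfl⟩
  rw [← he] at hww
  have heR : (e : ℝ) = rh + j * ro + z * (rn - j) := by exact_mod_cast he
  have i2 : al * ro + ga * rn = -2 * rh := by
    rw [hroR, hrnR, hrhR]; linear_combination (r1 : ℝ) * e1 + (r2 : ℝ) * e2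
  have hT : (rh : ℝ) + al * ga = -e + la * ((rn - j : ℤ) : ℝ) + mu * (ro - ga) := by
    push_cast
    rw [heR]
    have hj : (j : ℝ) = al + mu := by linarith
    have hz : (z : ℝ) = ga + la := by linarith
    rw [hj, hz]
    linear_combination i2
  have hwR : ((rn - j : ℤ) : ℝ) ≤ 0 := by exact_mod_cast hwn
  have hlw : la * ((rn - j : ℤ) : ℝ) ≤ 0 := mul_nonpos_of_nonneg_of_nonpos h0.le hwR
  have heR1 : (-1 : ℝ) ≤ e := by exact_mod_cast hww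
  obtain ⟨T, hTd⟩ : ∃ T : ℝ, T = rh + al * ga := ⟨_, rfl⟩
  have hT1 : T ≤ -e := by linarith
  have h6 : 6 * T = (ip3 p1 p2 p1 p2 : ℝ) * al ^ 2 + 2 * (3 + (ip3 p1 p2 q1 q2 : ℝ)) * al * ga
      + (ip3 q1 q2 q1 q2 : ℝ) * ga ^ 2 := by
    rw [hTd, hrhR]
    unfold ip3; push_cast
    linear_combination
      (3 * (r1 : ℝ) - (al * (2 * p1 + p2) + ga * (2 * q1 + q2))) * e1
      + (3 * (r2 : ℝ) - (al * (p1 + 2 * p2) + ga * (q1 + 2 * q2))) * e2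
  have hH : (ip3 p1 p2 p1 p2 : ℝ) * (ip3 q1 q2 q1 q2 : ℝ)
      - (3 + (ip3 p1 p2 q1 q2 : ℝ)) ^ 2 = (gram9 p1 p2 q1 q2 : ℝ) := by
    unfold gram9; push_cast; ring
  have ba := coef_le h6
  have bg := coef_le (P := (ip3 q1 q2 q1 q2 : ℝ)) (Q := (ip3 p1 p2 p1 p2 : ℝ))
    (M := 3 + (ip3 p1 p2 q1 q2 : ℝ)) (a := ga) (g := al) (T := T) (by rw [h6]; ring)
  rw [mul_comm (ip3 q1 q2 q1 q2 : ℝ)] at bg
  rw [hH] at ba bg
  have hH0 : (0 : ℝ) < (gram9 p1 p2 q1 q2 : ℝ) := by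
    have : 0 < gram9 p1 p2 q1 q2 := by
      rcases hF with h | h
      · linarith [h.g1, ip3_nonneg q1 q2]
      · have := h.g1
        rw [gram9_comm] at this
        linarith [ip3_nonneg p1 p2]
    exact_mod_cast this
  have hT0 : 0 < T := pos_of_coef hH0 hP hga0 bg
  have he1 : e = -1 := by
    have : (e : ℝ) < 0 := by linarith
    have : e < 0 := by exact_mod_cast this
    omega
  have hT2 : T ≤ 1 := by linarith
  have hb : (al ^ 2 < 1 ∧ 4 * ga ^ 2 ≤ 1 ∧ Far p1 p2 q1 q2)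
      ∨ (4 * al ^ 2 ≤ 1 ∧ ga ^ 2 < 1 ∧ Far q1 q2 p1 p2) := by
    rcases hF with h | h
    · left
      exact ⟨sq_lt_of hQ hT2 ba (by exact_mod_cast h.g1),
        sq_le_of hH0 hP.le hT2 bg (by exact_mod_cast h.g2), h⟩
    · right
      have g1' := h.g1
      have g2' := h.g2
      rw [gram9_comm] at g1' g2'
      exact ⟨sq_le_of hH0 hQ hT2 ba (by exact_mod_cast g2'),
        sq_lt_of hP.le hT2 bg (by exact_mod_cast g1'), h⟩
  have hag : -1 < al * ga := by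
    rcases hb with ⟨a, b, _⟩ | ⟨a, b, _⟩
    · exact prod_gt a b
    · rw [mul_comm]; exact prod_gt b a
  have hrh1 : rh < 2 := by
    have : (rh : ℝ) < 2 := by linarith
    exact_mod_cast this
  have hrh0 : 0 ≤ rh := hrh ▸ eis_nonneg r1 r2
  have hcase : rh = 0 ∨ rh = 1 := by omega
  rcases hcase with h | h
  · obtain ⟨a1, a2⟩ := eis_zero (hrh ▸ h)
    rw [a1, a2] at e1 e2
    have hDR : ((p1 : ℝ) * q2 - p2 * q1) ≠ 0 := by exact_mod_cast hD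
    apply hga0
    apply mul_right_cancel₀ hDR
    push_cast at e1 e2
    linear_combination (p1 : ℝ) * e2 - (p2 : ℝ) * e1
  · have hroot : r1 ^ 2 - r1 * r2 + r2 ^ 2 = 1 := by rw [← hrh, h]
    have hE : al * ga = la * ((rn - j : ℤ) : ℝ) + mu * (ro - ga) := by
      rw [h, he1] at hT
      push_cast at hT ⊢
      linarith
    have he2 : j * ro + z * (rn - j) = -2 := by rw [h, he1] at he; linarith
    rcases hb with ⟨a, b, c⟩ | ⟨a, b, c⟩
    · exact caseA hga h0 h1 hwn ht hE he2 a b (hrn ▸ root_big c.r1 c.r2 c.r3 hroot)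
    · exact caseB hal hga h0 h1 hwn ht hE he2 a b (hro ▸ root_big c.r1 c.r2 c.r3 hroot)

/-- **No wall**, coordinates: `w = r1 l1 + r2 l2 + j o + z n`, `w1 w2` its pairings with the basis
of `A2`. -/
theorem nowall_coord {p1 p2 q1 q2 r1 r2 j z w1 w2 : ℤ} {s la : ℝ}
    (hF : Far p1 p2 q1 q2 ∨ Far q1 q2 p1 p2) (hD : p1 * q2 - p2 * q1 ≠ 0)
    (hw1 : w1 = 2 * r1 - r2 + j * p1 + z * q1) (hw2 : w2 = -r1 + 2 * r2 + j * p2 + z * q2)
    (hs : 0 ≤ s) (h0 : 0 < la) (h1 : la < 1)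
    (hy : ((p1 * w2 - p2 * w1 : ℤ) : ℝ) = la * ((p1 * q2 - p2 * q1 : ℤ) : ℝ))
    (hx : (ip3 p1 p2 w1 w2 : ℝ) + s * ((r1 * p1 + r2 * p2 - z : ℤ) : ℝ)
      = la * ((ip3 p1 p2 q1 q2 : ℝ) - s))
    (hwn : r1 * q1 + r2 * q2 - j ≤ 0)
    (hww : -1 ≤ r1 ^ 2 - r1 * r2 + r2 ^ 2 + j * (r1 * p1 + r2 * p2)
      + z * (r1 * q1 + r2 * q2 - j)) : False := by
  have hP : (0 : ℝ) < (ip3 p1 p2 p1 p2 : ℝ) := by exact_mod_cast ip3_pos hD
  obtain ⟨mu, hmu⟩ : ∃ mu : ℝ, mu * (ip3 p1 p2 p1 p2 : ℝ)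
      = (ip3 p1 p2 w1 w2 : ℝ) - la * (ip3 p1 p2 q1 q2 : ℝ) := ⟨_, div_mul_cancel₀ _ hP.ne'⟩
  have hy' : (p1 : ℝ) * (w2 - la * q2) = p2 * (w1 - la * q1) := by
    push_cast at hy; linarith
  have m1 : (w1 : ℝ) - la * q1 = mu * p1 := by
    apply mul_right_cancel₀ hP.ne'
    have e : mu * p1 * (ip3 p1 p2 p1 p2 : ℝ) = p1 * (mu * (ip3 p1 p2 p1 p2 : ℝ)) := by ring
    rw [e, hmu]
    unfold ip3; push_cast
    linear_combination (-(p1 : ℝ) - 2 * p2) * hy'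
  have m2 : (w2 : ℝ) - la * q2 = mu * p2 := by
    apply mul_right_cancel₀ hP.ne'
    have e : mu * p2 * (ip3 p1 p2 p1 p2 : ℝ) = p2 * (mu * (ip3 p1 p2 p1 p2 : ℝ)) := by ring
    rw [e, hmu]
    unfold ip3; push_cast
    linear_combination (2 * (p1 : ℝ) + p2) * hy'
  have hw1R : (w1 : ℝ) = 2 * r1 - r2 + j * p1 + z * q1 := by exact_mod_cast hw1
  have hw2R : (w2 : ℝ) = -r1 + 2 * r2 + j * p2 + z * q2 := by exact_mod_cast hw2
  refine nowall_core (mu := mu) hF hD h0 h1 (by linear_combination m1 - hw1R)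
    (by linear_combination m2 - hw2R) (sign_mu hP hs ?_) hwn hww
  rw [hmu]; push_cast at hx ⊢; linear_combination hx

/-- **No wall**, lattice form. -/
theorem nowall {N : Type*} [AddCommGroup N] (b : N →+ N →+ ℤ) (hb : ∀ x y, b x y = b y x)
    {l1 l2 o n w : N} (h11 : b l1 l1 = 2) (h22 : b l2 l2 = 2) (h12 : b l1 l2 = -1)
    (hoo : b o o = 0) (hnn : b n n = 0) (hon : b o n = -1)
    (hF : Far (b l1 o) (b l2 o) (b l1 n) (b l2 n) ∨ Far (b l1 n) (b l2 n) (b l1 o) (b l2 o))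
    (hD : b l1 o * b l2 n - b l2 o * b l1 n ≠ 0)
    (hw : ∃ r1 r2 j z : ℤ, w = r1 • l1 + r2 • l2 + j • o + z • n)
    {s la : ℝ} (hs : 0 ≤ s) (h0 : 0 < la) (h1 : la < 1)
    (hy : ((b l1 o * b l2 w - b l2 o * b l1 w : ℤ) : ℝ)
      = la * ((b l1 o * b l2 n - b l2 o * b l1 n : ℤ) : ℝ))
    (hx : (ip3 (b l1 o) (b l2 o) (b l1 w) (b l2 w) : ℝ) + s * (b w o : ℝ)
      = la * ((ip3 (b l1 o) (b l2 o) (b l1 n) (b l2 n) : ℝ) + s * (b n o : ℝ)))
    (hwn : b w n ≤ 0) (hww : -2 ≤ b w w) : False := by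
  obtain ⟨r1, r2, j, z, hw⟩ := hw
  have ex : ∀ x, b x w = r1 * b x l1 + r2 * b x l2 + j * b x o + z * b x n := by
    intro x
    rw [hw]; simp only [map_add, map_zsmul, smul_eq_mul]
  have h21 : b l2 l1 = -1 := by rw [hb, h12]
  have hno : b n o = -1 := by rw [hb, hon]
  have e1 := ex l1
  have e2 := ex l2
  have eo := ex o
  have en := ex n
  have ew := ex w
  rw [hb o l1, hb o l2, hoo, hon] at eo
  rw [hb n l1, hb n l2, hnn, hno] at en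
  rw [hb w l1, hb w l2, hb w o, hb w n] at ew
  rw [h11, h12] at e1
  rw [h21, h22] at e2
  refine nowall_coord (r1 := r1) (r2 := r2) (j := j) (z := z) (s := s) hF hD
    (by rw [e1]; ring) (by rw [e2]; ring) hs h0 h1 hy ?_ ?_ ?_
  · rw [hb w o, eo, hno] at hx
    push_cast at hx ⊢
    linear_combination hx
  · rw [hb w n, en] at hwn
    linarith
  · rw [ew, e1, e2, eo, en] at hww
    nlinarith

end Vale.Agent.P287T.Sw
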