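import Vale.Agent.P287T.Sw.Ht0

/-!
# The switch: moving the real part of the central charge along a ray without walls
-/

set_option linter.unusedSectionVars false

open CategoryTheory CategoryTheory.Pretriangulated CategoryTheory.Limits

namespace Vale.Agent.P287T.Sw

open Vale.Agent.P294 Vale.Agent.P287T.Op

universe v u

variable {C : Type u} [Category.{v} C] [Preadditive C] [HasZeroObject C] [HasShift C ℤ]
  [∀ n : ℤ, (shiftFunctor C n).Additive] [Pretriangulated C] [IsTriangulated C]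

/-- every nonzero endomorphism is invertible -/
def Brk (B : C) : Prop := ∀ f : B ⟶ B, f ≠ 0 → IsIso f

/-- comparison of slopes for the stability function `X + i y` -/
def gs (X : C → ℝ) (y : C → ℤ) (B F : C) : ℝ := y B * X F - y F * X B

/-- semistable for `X + i y` -/
structure SSt (U V : C → Prop) (X : C → ℝ) (y : C → ℤ) (B : C) : Prop where
  ht : Ht U V B
  pos : 0 < y B
  ss : ∀ F Q, Ses U V F B Q → 0 ≤ gs X y B F

/-- no proper subobject of the same or bigger phase -/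
def Stt (U V : C → Prop) (X : C → ℝ) (y : C → ℤ) (B : C) : Prop :=
  ∀ F Q, Ses U V F B Q → ¬ IsZero F → ¬ IsZero Q → 0 < gs X y B F

theorem addRe {X : C → ℝ} (h : AddTri X) {A B D : C} (t : A2bTr A B D) : X B = X A + X D := by
  obtain ⟨_, _, _, hT⟩ := t
  exact h _ hT

theorem gs_tri {X : C → ℝ} {y : C → ℤ} (hX : AddTri X) (hy : AddTri y) (B : C) {A D E : C}
    (t : A2bTr A D E) : gs X y B D = gs X y B A + gs X y B E := by
  unfold gs
  rw [addRe hX t, addZ hy t]; push_cast; ring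

theorem gs_self (X : C → ℝ) (y : C → ℤ) (B : C) : gs X y B B = 0 := sub_self _

theorem gs_move {X : C → ℝ} {y : C → ℤ} {B F : C} (h : gs X y B F = 0) (G : C) :
    (y B : ℝ) * gs X y F G = y F * gs X y B G := by
  unfold gs at *
  linear_combination (-(y G : ℝ)) * h

namespace Hrt

variable {U V : C → Prop} {x y : C → ℤ} (H : Hrt U V x y) {X : C → ℝ} (hX : AddTri X)
  (hn : ∀ T, P1 U V y T → ¬ IsZero T → X T < 0)
include H hX hn

theorem sst_sub_pos {B F Q : C} (h : SSt U V X y B) (s : Ses U V F B Q) (hF : ¬ IsZero F) :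
    0 < y F := by
  refine lt_of_le_of_ne (H.ypos F s.h1) fun e => ?_
  have h1 := hn F ⟨s.h1, e.symm⟩ hF
  have h2 := h.ss F Q s
  have h3 : (0 : ℝ) < y B := by exact_mod_cast h.pos
  unfold gs at h2
  rw [← e] at h2
  push_cast at h2
  nlinarith

theorem sst_quot_pos {B F Q : C} (h : SSt U V X y B) (s : Ses U V F B Q) (hQ : ¬ IsZero Q)
    (h0 : gs X y B F = 0) : 0 < y Q := by
  refine lt_of_le_of_ne (H.ypos Q s.h3) fun e => ?_
  have h1 := hn Q ⟨s.h3, e.symm⟩ hQ
  have h2 := gs_tri hX H.yadd B s.tr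
  have h3 : (0 : ℝ) < y B := by exact_mod_cast h.pos
  rw [gs_self, h0, zero_add] at h2
  unfold gs at h2
  rw [← e] at h2
  push_cast at h2
  nlinarith

theorem sst_sub {B F Q : C} (h : SSt U V X y B) (s : Ses U V F B Q) (hF : ¬ IsZero F)
    (h0 : gs X y B F = 0) : SSt U V X y F := by
  have hp := H.sst_sub_pos hX hn h s hF
  refine ⟨s.h1, hp, fun F' Q' s' => ?_⟩
  obtain ⟨R, s1, -⟩ := s.sub_sub H.ts s'
  have h1 := h.ss F' R s1
  have h2 := gs_move h0 F'
  have h3 : (0 : ℝ) < y B := by exact_mod_cast h.pos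
  have h4 : (0 : ℝ) < y F := by exact_mod_cast hp
  exact le_of_mul_le_mul_left (by rw [mul_zero, h2]; positivity) h3

theorem sst_quot {B F Q : C} (h : SSt U V X y B) (s : Ses U V F B Q) (hQ : ¬ IsZero Q)
    (h0 : gs X y B F = 0) : SSt U V X y Q ∧ gs X y B Q = 0 := by
  have hp := H.sst_quot_pos hX hn h s hQ h0
  have hq : gs X y B Q = 0 := by
    have h2 := gs_tri hX H.yadd B s.tr
    rw [gs_self, h0, zero_add] at h2
    exact h2.symm
  refine ⟨⟨s.h3, hp, fun F' Q' s' => ?_⟩, hq⟩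
  obtain ⟨G, s1, s2⟩ := s.quot_quot H.ts s'
  have h1 := h.ss G Q' s1
  rw [gs_tri hX H.yadd B s2.tr, h0, zero_add] at h1
  have h2 := gs_move hq F'
  have h3 : (0 : ℝ) < y B := by exact_mod_cast h.pos
  have h4 : (0 : ℝ) < y Q := by exact_mod_cast hp
  exact le_of_mul_le_mul_left (by rw [mul_zero, h2]; positivity) h3

theorem brk_of_stt {B : C} (h : SSt U V X y B) (hs : Stt U V X y B) : Brk B := by
  intro f hf
  obtain ⟨K, I, Q, k, p, m, q, d, d', hK, hI, h1, h2, h3, rfl⟩ := heart_factor H.ts h.ht h.ht f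
  have hI0 : ¬ IsZero I := fun h0 => hf (by rw [h0.eq_of_tgt p 0, zero_comp])
  have hK0 : IsZero K := by
    by_contra hK0
    have a1 := hs K I ⟨⟨_, _, _, hK⟩, h1, h2⟩ hK0 hI0
    have a2 := h.ss I Q ⟨⟨_, _, _, hI⟩, h2, h3⟩
    have a3 := gs_tri hX H.yadd B ⟨_, _, _, hK⟩
    rw [gs_self] at a3
    linarith
  have hp : IsIso p := (Cc.isIso ⟨k, d, hK⟩).2 hK0
  have hQ0 : IsZero Q := by
    by_contra hQ0
    have a1 := addZ H.yadd ⟨_, _, _, hK⟩
    have a2 := addZ H.yadd ⟨_, _, _, hI⟩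
    have a3 := addZ H.xadd ⟨_, _, _, hK⟩
    have a4 := addZ H.xadd ⟨_, _, _, hI⟩
    have a5 := H.x_zero hK0
    have a6 := H.y_zero hK0
    have := H.xneg Q ⟨h3, by omega⟩ hQ0
    omega
  have hm : IsIso m := (Cn.isIso ⟨q, d', hI⟩).2 hQ0
  infer_instance

/-- a stable factor on which a given additive function is not positive -/
theorem exists_factor {t : C → ℤ} (ht : AddTri t) (B : C) (h : SSt U V X y B) (h0 : t B ≤ 0) :
    ∃ B', Ht U V B' ∧ Brk B' ∧ t B' ≤ 0 ∧ 0 < y B' ∧ y B' ≤ y B ∧ gs X y B B' = 0 ∧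
      (¬ Stt U V X y B → y B' < y B) := by
  induction hm : (y B).toNat using Nat.strong_induction_on generalizing B with
  | _ n ih =>
    by_cases hs : Stt U V X y B
    · exact ⟨B, h.ht, H.brk_of_stt hX hn h hs, h0, h.pos, le_rfl, gs_self _ _ _,
        fun hc => absurd hs hc⟩
    obtain ⟨F, Q, s, hF, hQ, hg⟩ : ∃ F Q, Ses U V F B Q ∧ ¬ IsZero F ∧ ¬ IsZero Q ∧
        gs X y B F = 0 := by
      by_contra hc
      refine hs fun F Q s hF hQ => lt_of_le_of_ne (h.ss F Q s) fun e => ?_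
      exact hc ⟨F, Q, s, hF, hQ, e.symm⟩
    have a1 := H.sst_sub hX hn h s hF hg
    obtain ⟨a2, hg'⟩ := H.sst_quot hX hn h s hQ hg
    have a3 := addZ H.yadd s.tr
    have a4 := addZ ht s.tr
    have a5 := a1.pos
    have a6 := a2.pos
    have key : ∃ B1, SSt U V X y B1 ∧ t B1 ≤ 0 ∧ y B1 < y B ∧ gs X y B B1 = 0 := by
      by_cases hc : t F ≤ 0
      · exact ⟨F, a1, hc, by omega, hg⟩
      · exact ⟨Q, a2, by omega, by omega, hg'⟩
    obtain ⟨B1, b1, b2, b3, b4⟩ := key
    have b5 := b1.pos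
    obtain ⟨B', c1, c2, c3, c4, c5, c6, -⟩ := ih (y B1).toNat (by omega) B1 b1 b2 rfl
    refine ⟨B', c1, c2, c3, c4, by omega, ?_, fun _ => by omega⟩
    have e := gs_move b4 B'
    rw [c6, mul_zero] at e
    have h4 : (y B1 : ℝ) ≠ 0 := by exact_mod_cast b5.ne'
    exact (mul_eq_zero.1 e.symm).resolve_left h4

end Hrt

/-- a family of affine functions with integer coefficients has a last zero -/
theorem last_zero {ι : Type*} (a b : ι → ℤ) (K : ℤ) (hK : ∀ i, -K ≤ a i) (hb : ∀ i, 0 ≤ b i)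
    (hab : ∀ i, a i < 0 → 0 < b i) {i0 : ι} (h0 : a i0 < 0) :
    ∃ (s : ℝ) (i : ι), 0 ≤ s ∧ a i < 0 ∧ (a i : ℝ) + s * b i = 0 ∧
      ∀ j, 0 ≤ (a j : ℝ) + s * b j := by
  let T : Set (ℤ × ℤ) := {z | ∃ i, z = (-a i, b i) ∧ a i < 0 ∧ b i * -a i0 ≤ -a i * b i0}
  have hT : T.Finite := by
    refine ((Set.finite_Icc (0 : ℤ) K).prod (Set.finite_Icc (0 : ℤ) (K * b i0))).subset ?_
    rintro _ ⟨i, rfl, h1, h2⟩
    have := hK i
    have := hb i
    have := hb i0
    refine ⟨⟨by omega, by omega⟩, hb i, ?_⟩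
    show b i ≤ K * b i0
    nlinarith
  obtain ⟨_, ⟨i, rfl, h1, h2⟩, hmax⟩ := Set.exists_max_image T
    (fun z => (z.1 : ℝ) / (z.2 : ℝ)) hT ⟨_, i0, rfl, h0, le_of_eq (by ring)⟩
  have hbi : (0 : ℝ) < b i := by exact_mod_cast hab i h1
  have hai : (a i : ℝ) < 0 := by exact_mod_cast h1
  have hs : (0 : ℝ) ≤ -(a i : ℝ) / b i := div_nonneg (by linarith) hbi.le
  refine ⟨-(a i : ℝ) / b i, i, hs, h1, by field_simp; ring, fun j => ?_⟩
  by_cases hj : a j < 0
  · have hbj : (0 : ℝ) < b j := by exact_mod_cast hab j hj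
    have hb0 : (0 : ℝ) < b i0 := by exact_mod_cast hab i0 h0
    have key : -(a j : ℝ) / b j ≤ -(a i : ℝ) / b i := by
      by_cases hc : b j * -a i0 ≤ -a j * b i0
      · simpa using hmax _ ⟨j, rfl, hj, hc⟩
      · have e1 : -(a i0 : ℝ) / b i0 ≤ -(a i : ℝ) / b i := by
          simpa using hmax _ ⟨i0, rfl, h0, le_of_eq (by ring)⟩
        refine le_trans ?_ e1
        rw [div_le_div_iff₀ hbj hb0]
        push Not at hc
        have : ((-a j * b i0 : ℤ) : ℝ) ≤ ((b j * -a i0 : ℤ) : ℝ) := by exact_mod_cast hc.le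
        push_cast at this
        linarith
    rw [div_le_iff₀ hbj] at key
    linarith
  · have h3 : (0 : ℝ) ≤ a j := by exact_mod_cast not_lt.1 hj
    have h4 : (0 : ℝ) ≤ b j := by exact_mod_cast hb j
    positivity

/-- **S4**: an object of rank one whose nonzero subobjects have positive rank is stable, if there
is no numerical wall. -/
theorem Hrt.s4 {U V : C → Prop} {x y : C → ℤ} (H : Hrt U V x y) {r t : C → ℤ} (radd : AddTri r)
    (tadd : AddTri t) (hr : ∀ T, P1 U V y T → r T ≤ 0) {E : C} (hE : Ht U V E)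
    (tf : TF U V y E) (hE0 : ¬ IsZero E) (rE : r E = 1)
    (hsub : ∀ F Q, Ses U V F E Q → ¬ IsZero F → 1 ≤ r F) (tE : t E ≤ 0)
    (nw : ∀ B, Ht U V B → Brk B → t B ≤ 0 → ∀ s la : ℝ, 0 ≤ s → 0 < la → la < 1 →
      (y B : ℝ) = la * y E → (x B : ℝ) + s * r B = la * (x E + s * r E) → False) :
    ∀ F Q, Ses U V F E Q → ¬ IsZero F → ¬ IsZero Q → 0 < y E * x F - y F * x E := by
  have hy := H.y_pos hE tf hE0
  have hyR : (0 : ℝ) < y E := by exact_mod_cast hy
  have step : ∀ s : ℝ, 0 ≤ s → (∀ F Q, Ses U V F E Q → 0 ≤ gs (fun A => x A + s * r A) y E F) →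
      Stt U V (fun A => x A + s * r A) y E := by
    intro s hs h
    by_contra hc
    have hX : AddTri fun A : C => (x A : ℝ) + s * r A := by
      intro T hT
      show (x T.obj₂ : ℝ) + s * r T.obj₂ = (x T.obj₁ + s * r T.obj₁) + (x T.obj₃ + s * r T.obj₃)
      rw [H.xadd T hT, radd T hT]; push_cast; ring
    have hn : ∀ T, P1 U V y T → ¬ IsZero T → (x T : ℝ) + s * r T < 0 := by
      intro T h1 h2
      have a1 : (x T : ℝ) < 0 := by exact_mod_cast H.xneg T h1 h2
      have a2 : (r T : ℝ) ≤ 0 := by exact_mod_cast hr T h1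
      nlinarith
    obtain ⟨B, c1, c2, c3, c4, -, c6, c7⟩ := H.exists_factor hX hn tadd E ⟨hE, hy, h⟩ tE
    have c8 : (y B : ℝ) < y E := by exact_mod_cast c7 hc
    have c9 : (0 : ℝ) < y B := by exact_mod_cast c4
    refine nw B c1 c2 c3 s (y B / y E) hs (by positivity) ((div_lt_one hyR).2 c8)
      (by field_simp) ?_
    unfold gs at c6
    field_simp
    linear_combination c6
  have gse : ∀ (s : ℝ) F, gs (fun A => x A + s * r A) y E F
      = ((y E * x F - y F * x E : ℤ) : ℝ) + s * ((y E * r F - y F : ℤ) : ℝ) := by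
    intro s F
    simp only [gs, rE]; push_cast; ring
  have h0 : ∀ F Q, Ses U V F E Q → 0 ≤ y E * x F - y F * x E := by
    intro F0 Q0 s0
    by_contra hc
    obtain ⟨K, hK⟩ := H.bound E hE tf
    have yle : ∀ F Q, Ses U V F E Q → 0 ≤ y F ∧ y F ≤ y E := fun F Q s => by
      have := addZ H.yadd s.tr
      have := H.ypos _ s.h1
      have := H.ypos _ s.h3
      omega
    have ne1 : ∀ F Q, Ses U V F E Q → y E * x F - y F * x E < 0 → ¬ IsZero F := by
      intro F Q s h hF
      rw [H.x_zero hF, H.y_zero hF] at h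
      simp at h
    have ne3 : ∀ F Q, Ses U V F E Q → y E * x F - y F * x E < 0 → ¬ IsZero Q := by
      intro F Q s h hQ
      have a1 := addZ H.yadd s.tr
      have a2 := addZ H.xadd s.tr
      rw [H.x_zero hQ] at a2
      rw [H.y_zero hQ] at a1
      rw [a1, a2] at h
      simp at h
    obtain ⟨s, ⟨⟨F, Q⟩, sF⟩, hs, h1, h2, h3⟩ := last_zero
      (ι := {p : C × C // Ses U V p.1 E p.2}) (fun p => y E * x p.1.1 - y p.1.1 * x E)
      (fun p => y E * r p.1.1 - y p.1.1) (y E * K + y E * |x E|)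
      (fun p => by
        have a1 := hK _ _ p.2
        obtain ⟨a2, a3⟩ := yle _ _ p.2
        have a4 := le_abs_self (x E)
        have a5 := abs_nonneg (x E)
        show _ ≤ y E * x p.1.1 - y p.1.1 * x E
        nlinarith)
      (fun p => by
        obtain ⟨a2, a3⟩ := yle _ _ p.2
        show 0 ≤ y E * r p.1.1 - y p.1.1
        by_cases hF : IsZero p.1.1
        · rw [radd.zeroG hF, H.y_zero hF]; simp
        · have := hsub _ _ p.2 hF
          nlinarith)
      (fun p hp => by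
        obtain ⟨a2, a3⟩ := yle _ _ p.2
        have a1 := hsub _ _ p.2 (ne1 _ _ p.2 hp)
        show 0 < y E * r p.1.1 - y p.1.1
        rcases a3.lt_or_eq with a4 | a4
        · nlinarith
        · exfalso
          have a5 := addZ H.yadd p.2.tr
          have a6 := addZ H.xadd p.2.tr
          have a7 := H.x_nonpos (X := p.1.2) ⟨p.2.h3, by omega⟩
          have hp' : y E * x p.1.1 - y p.1.1 * x E < 0 := hp
          rw [a4, a6] at hp'
          nlinarith)
      (i0 := ⟨(F0, Q0), s0⟩) (not_le.1 hc)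
    have := step s hs (fun F Q s' => by rw [gse]; exact h3 ⟨(F, Q), s'⟩) F Q sF
      (ne1 F Q sF h1) (ne3 F Q sF h1)
    rw [gse] at this
    exact this.ne' h2
  intro F Q s hF hQ
  have := step 0 le_rfl (fun F Q s' => by
    rw [gse, zero_mul, add_zero]; exact_mod_cast h0 F Q s') F Q s hF hQ
  rw [gse, zero_mul, add_zero] at this
  exact_mod_cast this

end Vale.Agent.P287T.Sw
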