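import Vale.Agent.P287T.Sw.Ht3
import Vale.Agent.P287T.Sw.Lb
import Vale.Agent.P287T.Sw.S4
import Vale.Agent.P287T.Sw.NoWall

/-!
# The abstract switch
-/

set_option linter.unusedSectionVars false

open CategoryTheory CategoryTheory.Pretriangulated CategoryTheory.Limits Module

namespace Vale.Agent.P287T.Sw

open Vale.Agent.P294 Vale.Agent.P287T.Op

universe v u

variable {C : Type u} [Category.{v} C] [Preadditive C] [Linear ℂ C] [HasZeroObject C]
  [HasShift C ℤ] [∀ n : ℤ, (shiftFunctor C n).Additive] [Pretriangulated C] [IsTriangulated C]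
  [∀ n : ℤ, (shiftFunctor C n).Linear ℂ]

/-- the family detects zero objects -/
def Span {S : Type*} (O : S → C) : Prop := ∀ X, (∀ q (k : ℤ), Orth X ((O q)⟦k⟧)) → IsZero X

theorem fam_of (K : CY2 C) {U V : C → Prop} {y r : C → ℤ} {S : Type*} {O : S → C}
    (hs : ∀ q, Sim U V (O q)) (hy : ∀ q, y (O q) = 0) (hr : ∀ q X, r X = chi X (O q))
    (h0 : ∀ q, chi (O q) (O q) = 0) (q0 : S) (sp : Span O) : Fam U V y r O where
  sim := hs
  y0 := hy
  add T hT := by simp only [hr q0]; exact K.addL (O q0) T hT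
  r0 q := (hr q _).trans (h0 q)
  fin := K.finite
  ser q X h := K.fr_zero.1 ((K.serre0 X (O q)).trans (fr_of_zero h))
  chi q X h := by
    rw [hr q, chi_window fun k hk => fr_of_zero (h k hk), hd_zero]
  span := sp

theorem im_lam {φ m : ℝ} (z : ℂ) : (starRingEnd ℂ (m * ray φ) * z).im = m * lam φ z := by
  simp only [lam_eq, ray_eq, map_mul, Complex.conj_ofReal, Complex.mul_im, Complex.mul_re,
    Complex.ofReal_re, Complex.ofReal_im, Complex.conj_re, Complex.conj_im]
  ring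

/-- **The switch.** -/
theorem switch (K : CY2 C) {σ : Slic C} {Z : C → ℂ} {r : C → ℕ} {c φ : ℝ} (h : Stab σ Z r c)
    {N : Type} [AddCommGroup N] (b : N →+ N →+ ℤ) (hb : ∀ x y, b x y = b y x) {v : C → N}
    (hv : AddTri v) (hchi : ∀ X Y, chi X Y = -b (v X) (v Y)) {l1 l2 o n : N} {w1 w2 : ℂ}
    (hw : 0 < w1.re * w2.im - w1.im * w2.re)
    (hZ : ∀ X, Z X = b l1 (v X) * w1 + b l2 (v X) * w2)
    (h11 : b l1 l1 = 2) (h22 : b l2 l2 = 2) (h12 : b l1 l2 = -1) (hoo : b o o = 0)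
    (hnn : b n n = 0) (hon : b o n = -1) (hp : IsCoprime (b l1 o) (b l2 o))
    (hF : Far (b l1 o) (b l2 o) (b l1 n) (b l2 n) ∨ Far (b l1 n) (b l2 n) (b l1 o) (b l2 o))
    (hD : b l1 o * b l2 n - b l2 o * b l1 n < 0)
    (hg : ∀ X, ∃ r1 r2 j z : ℤ, v X = r1 • l1 + r2 • l2 + j • o + z • n)
    {S : Type*} {O : S → C} (p : S) (hO : ∀ q, σ.P φ (O q) ∧ v (O q) = o) (sp : Span O) {G : C}
    (L : Lb O G) (hG : v G = n + o) : ∃ E ψ, σ.P ψ E ∧ v E = n := by
  have D : LatD Z w1 w2 (fun X => b l1 (v X)) fun X => b l2 (v X) := ⟨hw.ne', hZ⟩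
  obtain ⟨s, t, hst⟩ := hp
  obtain ⟨e, he, k⟩ := D.crd h (hO p).1 (u := s) (v := t) (by simpa only [(hO p).2] using hst)
  simp only [(hO p).2] at k
  have H := k.hrt h
  have hZO : ∀ q, Z (O q) = Z (O p) := fun q => by rw [hZ, hZ, (hO q).2, (hO p).2]
  have F := fam_of K (r := fun X => -b (v X) o)
    (y := fun X => e * (b l1 o * b l2 (v X) - b l2 o * b l1 (v X))) (fun q => k.sim h (hO q).1 (hZO q))
    (fun q => (k.xy (hZO q)).2) (fun q X => by rw [hchi, (hO q).2])
    (fun q => by rw [hchi, (hO q).2, hoo, neg_zero]) p sp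
  have hy : 0 < e * (b l1 o * b l2 (v G) - b l2 o * b l1 (v G)) := by
    obtain ⟨m, hm, h0⟩ := k.h0
    have e1 := im_lam (φ := φ) (m := m) (Z G)
    rw [← h0, k.lam_y, hZ, hZ, (hO p).2] at e1
    simp only [map_add, map_mul, map_intCast, Complex.mul_im, Complex.mul_re, Complex.add_re,
      Complex.add_im, Complex.intCast_re, Complex.intCast_im, Complex.conj_re,
      Complex.conj_im] at e1
    have e2 : ((b l1 o * b l2 (v G) - b l2 o * b l1 (v G) : ℤ) : ℝ) < 0 := by
      rw [hG, map_add, map_add]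
      exact_mod_cast (by linarith : b l1 o * (b l2 n + b l2 o) - b l2 o * (b l1 n + b l1 o) < 0)
    have e3 : m * (((e * (b l1 o * b l2 (v G) - b l2 o * b l1 (v G)) : ℤ) : ℝ) *
        lam φ (e * (-t * w1 + s * w2))) < 0 := by
      rw [← e1]
      push_cast at e2
      nlinarith [mul_pos (neg_pos.2 e2) hw]
    have e4 := neg_of_mul_neg_left (mul_comm m _ ▸ e3) hm.le
    exact_mod_cast pos_of_mul_neg_left e4 k.lam1.le
  obtain ⟨E, sE, tf, rE, hsub⟩ := F.ideal H L p hy
  have vE : v E = n := by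
    obtain ⟨_, _, _, hT⟩ := sE.tr
    have : v G = v E + v (O p) := hv _ hT
    rw [hG, (hO p).2] at this
    exact (add_right_cancel this).symm
  have hE0 : ¬ IsZero E := fun h0 => by rw [F.add.zeroG h0] at rE; omega
  have he2 : (e : ℝ) ≠ 0 := by rcases he with rfl | rfl <;> norm_num
  have key := H.s4 (t := fun X => b (v X) n) F.add
    (fun T hT => by simp only [hv T hT, map_add, AddMonoidHom.add_apply])
    (fun T hT => F.r_nonpos H p hT) sE.h1 tf hE0 rE hsub (by simp only [vE, hnn, le_refl])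
    (fun B hB hbr ht s' la hs' h0 h1 ey ex => by
      simp only [vE] at ey ex
      have hP : (0 : ℝ) < ip3 (b l1 o) (b l2 o) (b l1 o) (b l2 o) := by
        exact_mod_cast ip3_pos hD.ne
      have ey' : ((b l1 o * b l2 (v B) - b l2 o * b l1 (v B) : ℤ) : ℝ) =
          la * ((b l1 o * b l2 n - b l2 o * b l1 n : ℤ) : ℝ) := by
        apply mul_left_cancel₀ he2
        push_cast at ey ⊢
        linear_combination ey
      have hB0 : ¬ IsZero B := fun z => by
        rw [hv.zeroG z] at ey'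
        simp only [map_zero, mul_zero, sub_zero, Int.cast_zero] at ey'
        have : ((b l1 o * b l2 n - b l2 o * b l1 n : ℤ) : ℝ) < 0 := by exact_mod_cast hD
        nlinarith
      have h2 := K.chi_brick_le H.ts hB hB0 hbr
      rw [hchi] at h2
      refine nowall b hb h11 h22 h12 hoo hnn hon hF hD.ne (hg B)
        (s := ip3 (b l1 o) (b l2 o) (b l1 o) (b l2 o) * s') (mul_nonneg hP.le hs') h0 h1 ey' ?_ ht
        (by omega)
      have hst' : (s : ℝ) * b l1 o + t * b l2 o = 1 := by exact_mod_cast hst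
      simp only [ip3] at ey' ⊢
      push_cast at ex ey' ⊢
      set p1 : ℝ := (b l1 o : ℝ)
      set p2 : ℝ := (b l2 o : ℝ)
      linear_combination (-(2 * p1 * p1 + p1 * p2 + p2 * p1 + 2 * p2 * p2)) * ex +
        (2 * p1 * -t + p1 * s + p2 * -t + 2 * p2 * s) * ey' -
        ((2 * p1 + p2) * (b l1 (v B) - la * b l1 n) +
          (p1 + 2 * p2) * (b l2 (v B) - la * b l2 n)) * hst')
  obtain ⟨ψ, -, -, hP⟩ := k.ss_of_sub h sE.h1 fun A Q s' a q => (key A Q s' a q).le
  exact ⟨E, ψ, hP, vE⟩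

end Vale.Agent.P287T.Sw
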