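import Vale.Agent.P287T.Sw.Ht4
import Vale.Agent.P287T.Sw.Ht5
import Vale.Agent.P287T.Top.Defs

/-!
# The switch for matrix factorizations of a smooth cubic
-/

open CategoryTheory CategoryTheory.Pretriangulated CategoryTheory.Limits Module
open scoped ComplexConjugate

namespace Vale.Agent.P287T.Sw

open Vale.Agent.P294 Vale.Agent.P287T.Op Vale.Agent.P287T.G3 Vale.Agent.P287T.Cy
  Vale.Agent.P287T.Top

theorem exists_bZ {V : Type} [AddCommGroup V] (B : V →+ V →+ ℂ) (s : Set V)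
    (h : ∀ x ∈ s, ∀ y ∈ s, (∃ k : ℤ, B x y = k) ∧ B x y = B y x) :
    ∃ b : AddSubgroup.closure s →+ AddSubgroup.closure s →+ ℤ,
      (∀ x y, (b x y : ℂ) = B x y) ∧ ∀ x y, b x y = b y x := by
  have key : ∀ x ∈ AddSubgroup.closure s, ∀ y ∈ AddSubgroup.closure s,
      (∃ k : ℤ, B x y = k) ∧ B x y = B y x := by
    intro x hx y hy
    induction hx, hy using AddSubgroup.closure_induction₂ with
    | mem x y hx hy => exact h x hx y hy
    | zero_left x _ => exact ⟨⟨0, by simp⟩, by simp⟩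
    | zero_right x _ => exact ⟨⟨0, by simp⟩, by simp⟩
    | add_left x y z _ _ _ h1 h2 =>
      obtain ⟨⟨a, ha⟩, e1⟩ := h1
      obtain ⟨⟨b, hb⟩, e2⟩ := h2
      exact ⟨⟨a + b, by simp [ha, hb]⟩, by simp [e1, e2]⟩
    | add_right y z x _ _ _ h1 h2 =>
      obtain ⟨⟨a, ha⟩, e1⟩ := h1
      obtain ⟨⟨b, hb⟩, e2⟩ := h2
      exact ⟨⟨a + b, by simp [ha, hb]⟩, by simp [e1, e2]⟩
    | neg_left x y _ _ h1 =>
      obtain ⟨⟨a, ha⟩, e1⟩ := h1
      exact ⟨⟨-a, by simp [ha]⟩, by simp [e1]⟩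
    | neg_right x y _ _ h1 =>
      obtain ⟨⟨a, ha⟩, e1⟩ := h1
      exact ⟨⟨-a, by simp [ha]⟩, by simp [e1]⟩
  choose k hk using fun (x y : AddSubgroup.closure s) => (key x x.2 y y.2).1
  refine ⟨AddMonoidHom.mk' (fun x => AddMonoidHom.mk' (fun y => k x y) fun y y' => ?_)
    fun x x' => AddMonoidHom.ext fun y => ?_, fun x y => (hk x y).symm, fun x y => ?_⟩
  · apply Int.cast_injective (α := ℂ)
    rw [Int.cast_add, ← hk, ← hk, ← hk, AddSubgroup.coe_add, map_add]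
  · apply Int.cast_injective (α := ℂ)
    change (k (x + x') y : ℂ) = ((k x y + k x' y : ℤ) : ℂ)
    rw [Int.cast_add, ← hk, ← hk, ← hk, AddSubgroup.coe_add, map_add, AddMonoidHom.add_apply]
  · apply Int.cast_injective (α := ℂ)
    change (k x y : ℂ) = (k y x : ℂ)
    rw [← hk, ← hk, (key x x.2 y y.2).2]

variable {W : S6}

variable (W) in
/-- the Mukai pairing as a biadditive map -/
noncomputable def mkA : Cls W →+ Cls W →+ ℂ :=
  AddMonoidHom.mk' (fun v => AddMonoidHom.mk' (fun w => Top.mk v w) fun w w' => by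
    simp only [Top.mk, Prod.fst_add, Prod.snd_add, mul_add, map_add, Complex.add_re,
      Complex.ofReal_add]
    ring) fun v v' => AddMonoidHom.ext fun w => by
    simp only [Top.mk, Prod.fst_add, Prod.snd_add, add_mul, map_add, Complex.add_re,
      Complex.ofReal_add, AddMonoidHom.mk'_apply, AddMonoidHom.add_apply]
    ring

theorem mkA_apply (v w : Cls W) : mkA W v w = Top.mk v w := rfl

theorem s3_sq : (√3 : ℝ) * √3 = 3 := Real.mul_self_sqrt (by norm_num)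

theorem om_sq : om ^ 2 = -1 - om := by
  apply Complex.ext <;> simp [om, pow_two] <;> nlinarith [s3_sq]

theorem e6_eq : e6 = 1 + om := by
  apply Complex.ext <;> simp [om, e6]; norm_num

theorem wI_eq : (1 - om) ^ 3 = -wI := by
  have : (1 - om) ^ 3 = -3 * (1 + 2 * om) := by linear_combination (3 - om + 1) * om_sq
  rw [this]
  apply Complex.ext
  · simp [om, wI]; ring
  · simp [om, wI]; ring

theorem eis_eq (u : Fin 3 → ℤ) : eis u = ((u 0 - u 1 : ℤ) : ℂ) + ((u 1 - u 2 : ℤ) : ℂ) * e6 := by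
  rw [eis, om_sq, e6_eq]; push_cast; ring

theorem Pq_eq {a : ℂ} {p1 p2 : ℤ} (h : Pq a p1 p2) : a = p1 + p2 * e6 := by
  obtain ⟨u, rfl, rfl, rfl⟩ := h
  exact eis_eq u

theorem LT_eq {v : Cls W} (h : v ∈ LT W) : v.1 = q1 v.1 + q2 v.1 * e6 := by
  obtain ⟨x, -, u, -, rfl⟩ := h
  rw [eis_eq, q1_eq, q2_eq]

theorem mk_l1 {w : Cls W} {p1 p2 : ℤ} (h : w.1 = p1 + p2 * e6) :
    Top.mk (l1 W) w = p1 ∧ Top.mk w (l1 W) = p1 := by
  have e1 : (conj (l1 W).1 * w.1).re = 3 / 2 * p1 := by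
    rw [h]; simp [l1, eis, om, e6]; linear_combination (-(p2 : ℝ) / 4) * s3_sq
  have e2 : (conj w.1 * (l1 W).1).re = 3 / 2 * p1 := by
    rw [h]; simp [l1, eis, om, e6]; linear_combination (-(p2 : ℝ) / 4) * s3_sq
  rw [Top.mk, Top.mk, e1, e2]
  simp [l1]; ring

theorem mk_l2 {w : Cls W} {p1 p2 : ℤ} (h : w.1 = p1 + p2 * e6) :
    Top.mk (l2 W) w = p2 ∧ Top.mk w (l2 W) = p2 := by
  have e0 : (l2 W).1 = ⟨0, √3⟩ := by
    change eis _ = _
    rw [eis, om_sq]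
    apply Complex.ext <;> simp [om]
    ring
  have e1 : (conj (l2 W).1 * w.1).re = 3 / 2 * p2 := by
    rw [h, e0]; simp [e6]; linear_combination ((p2 : ℝ) / 2) * s3_sq
  have e2 : (conj w.1 * (l2 W).1).re = 3 / 2 * p2 := by
    rw [h, e0]; simp [e6]; linear_combination ((p2 : ℝ) / 2) * s3_sq
  rw [Top.mk, Top.mk, e1, e2]
  simp [l2]; ring

theorem l1_eq : (l1 W).1 = (2 : ℤ) + (-1 : ℤ) * e6 := (eis_eq _).trans (by simp)

theorem l2_eq : (l2 W).1 = (-1 : ℤ) + (2 : ℤ) * e6 := (eis_eq _).trans (by simp)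

theorem im_e6 (p1 p2 q1 q2 : ℤ) : (conj ((p1 : ℂ) + p2 * e6) * (q1 + q2 * e6)).im =
    √3 / 2 * ((p1 * q2 - p2 * q1 : ℤ) : ℝ) := by
  simp [e6]; ring

/-- what is used about the class map -/
structure ClD (cl : HM W → Cls W) : Prop where
  fst : ∀ E, (cl E).1 = Rr.zE E.pz / (1 - om) ^ 3
  mem : ∀ E, cl E ∈ LT W
  hdg : ∀ E, Hdg (cl E)
  add : AddTri cl
  chi : ∀ E F, (chi E F : ℂ) = -Top.mk (cl E) (cl F)

namespace ClD

variable {cl : HM W → Cls W} (D : ClD cl)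
include D

theorem aE (E : HM W) : (cl E).1 = aE E := by rw [D.fst, wI_eq]; rfl

theorem intZ : IntZ W := fun E => ⟨_, _, by rw [← D.aE]; exact LT_eq (D.mem E)⟩

theorem pm {E : HM W} (h : PrimA (cl E).1) : Pm E := by
  obtain ⟨p1, p2, h, hc⟩ := h
  rw [Pm, ← D.aE, Pq_eq h, q1_eq, q2_eq]
  exact hc

theorem chi_zero {E F : HM W} {v : Cls W} (hv : Top.mk v v = 0) (hE : cl E = v) (hF : cl F = v) :
    P294.chi E F = 0 := by
  have := D.chi E F
  rw [hE, hF, hv, neg_zero] at this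
  exact_mod_cast this

/-- **The switch from `o` to `n`.** -/
theorem sw (c : Rr.Cu W) {o n : Cls W} (s : SwHyp o n) {S : Type*} {O : S → HM W} {φ : ℝ} (p : S)
    (hO : ∀ q, (sgW c).P φ (O q) ∧ cl (O q) = o) (sp : Span O) {G : HM W} (L : Lb O G)
    (hG : cl G = n + o) : ∃ E ψ, (sgW c).P ψ E ∧ cl E = n := by
  obtain ⟨p1, p2, r1, r2, ho, hn, hF⟩ := s.far
  have eo := Pq_eq ho
  have en := Pq_eq hn
  have hno : Top.mk n o = -1 := by
    have e1 := D.chi G (O p)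
    have e2 := D.chi (O p) G
    rw [(cy2 c).chi_symm, e1, hG, (hO p).2, ← mkA_apply, ← mkA_apply, map_add, map_add,
      AddMonoidHom.add_apply, mkA_apply, mkA_apply, mkA_apply, s.pair] at e2
    linear_combination -e2
  obtain ⟨b, hb, bs⟩ := exists_bZ (mkA W) {l1 W, l2 W, o, n} (by
    have a1 := mk_l1 (W := W) l1_eq
    have a2 := mk_l1 (W := W) l2_eq
    have a3 := mk_l2 (W := W) l2_eq
    have a4 := mk_l1 eo
    have a5 := mk_l1 en
    have a6 := mk_l2 eo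
    have a7 := mk_l2 en
    have a8 : Top.mk o n = (-1 : ℤ) := by rw [s.pair]; simp
    have a9 : Top.mk n o = (-1 : ℤ) := by rw [hno]; simp
    have a10 : Top.mk o o = (0 : ℤ) := by rw [s.no.iso]; simp
    have a11 : Top.mk n n = (0 : ℤ) := by rw [s.nn.iso]; simp
    rintro x (rfl | rfl | rfl | rfl) y (rfl | rfl | rfl | rfl) <;> simp only [mkA_apply]
    exacts [⟨⟨_, a1.1⟩, trivial⟩, ⟨⟨_, a2.1⟩, a2.1.trans a2.2.symm⟩,
      ⟨⟨_, a4.1⟩, a4.1.trans a4.2.symm⟩, ⟨⟨_, a5.1⟩, a5.1.trans a5.2.symm⟩,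
      ⟨⟨_, a2.2⟩, a2.2.trans a2.1.symm⟩, ⟨⟨_, a3.1⟩, trivial⟩,
      ⟨⟨_, a6.1⟩, a6.1.trans a6.2.symm⟩, ⟨⟨_, a7.1⟩, a7.1.trans a7.2.symm⟩,
      ⟨⟨_, a4.2⟩, a4.2.trans a4.1.symm⟩, ⟨⟨_, a6.2⟩, a6.2.trans a6.1.symm⟩,
      ⟨⟨_, a10⟩, trivial⟩, ⟨⟨_, a8⟩, a8.trans a9.symm⟩,
      ⟨⟨_, a5.2⟩, a5.2.trans a5.1.symm⟩, ⟨⟨_, a7.2⟩, a7.2.trans a7.1.symm⟩,
      ⟨⟨_, a9⟩, a9.trans a8.symm⟩, ⟨⟨_, a11⟩, trivial⟩])
  let M := AddSubgroup.closure ({l1 W, l2 W, o, n} : Set (Cls W))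
  let m1 : M := ⟨l1 W, AddSubgroup.subset_closure (by simp)⟩
  let m2 : M := ⟨l2 W, AddSubgroup.subset_closure (by simp)⟩
  let mo : M := ⟨o, AddSubgroup.subset_closure (by simp)⟩
  let mn : M := ⟨n, AddSubgroup.subset_closure (by simp)⟩
  have hg : ∀ X, ∃ (r1 r2 j z : ℤ), cl X = (r1 • m1 + r2 • m2 + j • mo + z • mn : M) :=
    fun X => s.gen _ (D.mem X) (D.hdg X)
  let v : HM W → M := fun X => ⟨cl X, by
    obtain ⟨_, _, _, _, h⟩ := hg X
    rw [h]; exact SetLike.coe_mem _⟩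
  have val : ∀ {x y : M} {k : ℤ}, Top.mk x.1 y.1 = k → b x y = k := fun h =>
    Int.cast_injective (α := ℂ) ((hb _ _).trans h)
  have b1o : b m1 mo = p1 := val (mk_l1 eo).1
  have b2o : b m2 mo = p2 := val (mk_l2 eo).1
  have b1n : b m1 mn = r1 := val (mk_l1 en).1
  have b2n : b m2 mn = r2 := val (mk_l2 en).1
  obtain ⟨E, ψ, hP, hE⟩ := switch (cy2 c) (stabW c) b bs (v := v) (l1 := m1) (l2 := m2) (o := mo)
    (n := mn) (w1 := wI) (w2 := wI * e6) (fun T hT => Subtype.ext (D.add T hT))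
    (fun X Y => Int.cast_injective (α := ℂ) (by rw [Int.cast_neg, hb, D.chi]; rfl))
    (by
      have : (0 : ℝ) < √3 := by positivity
      simp only [wI, e6, Complex.mul_re, Complex.mul_im]
      nlinarith [s3_sq])
    (fun X => by
      have e := LT_eq (D.mem X)
      rw [val (x := m1) (y := v X) (mk_l1 e).1, val (x := m2) (y := v X) (mk_l2 e).1, D.aE]
      exact D.intZ.latD.eq X)
    (val (mk_l1 l1_eq).1) (val (mk_l2 l2_eq).1) (val (mk_l1 l2_eq).1)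
    (val (s.no.iso.trans (by simp))) (val (s.nn.iso.trans (by simp)))
    (val (s.pair.trans (by simp)))
    (by
      obtain ⟨a, a', h, hc⟩ := s.no.prim
      rw [val (x := m1) (y := mo) (mk_l1 (Pq_eq h)).1, val (x := m2) (y := mo) (mk_l2 (Pq_eq h)).1]
      exact hc)
    (by rw [b1o, b2o, b1n, b2n]; exact hF)
    (by
      have h := s.ori
      rw [eo, en, im_e6] at h
      have : (0 : ℝ) < √3 / 2 := by positivity
      rw [b1o, b2o, b1n, b2n]
      exact_mod_cast neg_of_mul_neg_left (mul_comm (√3 / 2 : ℝ) _ ▸ h) this.le)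
    (fun X => by
      obtain ⟨a, a', j, z, h⟩ := hg X
      exact ⟨a, a', j, z, Subtype.ext h⟩)
    p (fun q => ⟨(hO q).1, Subtype.ext (hO q).2⟩) sp L (Subtype.ext hG)
  exact ⟨E, ψ, hP, congrArg Subtype.val hE⟩

end ClD

/-- the class `n + o` of the line bundle used in a switch -/
theorem swHyp_sum {o n : Cls W} (s : SwHyp o n) (hs : Top.mk n o = Top.mk o n) :
    n + o ∈ LT W ∧ Hdg (n + o) ∧ Top.mk (n + o) o = -1 ∧ Top.mk (n + o) (n + o) = -2 := by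
  refine ⟨add_mem s.nn.mem s.no.mem, add_mem s.hn s.ho, ?_, ?_⟩
  · rw [← mkA_apply, map_add, AddMonoidHom.add_apply, mkA_apply, mkA_apply, hs, s.pair, s.no.iso,
      add_zero]
  · rw [← mkA_apply]
    simp only [map_add, AddMonoidHom.add_apply, mkA_apply, hs, s.pair, s.no.iso, s.nn.iso]
    ring

end Vale.Agent.P287T.Sw
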