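import Vale.Agent.P287T.Sw.Ht3
import Vale.Agent.P287T.G3.E
import Vale.Agent.P287T.G3.Br2
import Vale.Agent.P287T.Rr.Defs
import Vale.Agent.P287T.Df.St

/-!
# The heart layer for graded matrix factorizations of a smooth cubic
-/

open CategoryTheory CategoryTheory.Pretriangulated CategoryTheory.Limits Module

namespace Vale.Agent.P287T.Sw

open Vale.Agent.P294 Vale.Agent.P287T.Op Vale.Agent.P287T.G3 Vale.Agent.P287T.Cy

variable {W : S6}

/-- the Gepner slicing of a smooth cubic -/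
noncomputable abbrev sgW (c : Rr.Cu W) : Slic (HM W) := (sig W c.hom c.sm).σ

theorem stabW (c : Rr.Cu W) : Stab (sgW c) (fun E => -Zf E) rk c6 := sig6_stab c.hom c.sm

theorem cy2 (c : Rr.Cu W) : CY2 (HM W) :=
  ⟨finHom (hg_of_isHomogeneous c.hom) c.sm, serre_sh (hg_of_isHomogeneous c.hom) c.sm⟩

theorem ray_zeta (n : ℤ) : ray (-(n : ℝ) / 3) = Rr.ζ ^ n := by
  have h : Rr.ζ = ray (-1 / 3) := by
    rw [ray_eq, show Real.pi * (-1 / 3) = -(Real.pi / 3) by ring, Real.cos_neg, Real.sin_neg,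
      Real.cos_pi_div_three, Real.sin_pi_div_three]
    rfl
  rw [h, ray, ray, ← Complex.exp_int_mul]
  congr 1
  push_cast
  ring

theorem Zf_eq (E : HM W) : Zf E = Rr.zE E.pz :=
  Finset.sum_congr rfl fun i _ => ray_zeta (E.pz i)

theorem hd_eq (E F : HM W) (k : ℤ) : hd E F k = finrank ℂ (HH E.pz E.dz F.pz F.dz (3 * k)) :=
  (homSh E F k).finrank_eq.symm

theorem chi_eq (E F : HM W) : chi E F = Rr.chi E.pz E.dz F.pz F.dz :=
  finsum_congr fun k => congrArg (fun n : ℕ => ((k.negOnePow : ℤˣ) : ℤ) * (n : ℤ)) (hd_eq E F k)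

/-- `-(1 - ω) ^ 3` -/
noncomputable def wI : ℂ := ⟨0, 3 * √3⟩

/-- `1 + ω` -/
noncomputable def e6 : ℂ := ⟨1 / 2, √3 / 2⟩

/-- the first coordinate of `p1 + p2 (1 + ω)` -/
noncomputable def q1 (a : ℂ) : ℤ := ⌊a.re - a.im / √3⌋

/-- the second coordinate of `p1 + p2 (1 + ω)` -/
noncomputable def q2 (a : ℂ) : ℤ := ⌊2 * a.im / √3⌋

theorem s3_ne : (√3 : ℝ) ≠ 0 := by positivity

theorem wI_ne : wI ≠ 0 := fun h => by
  have := congrArg Complex.im h
  simp [wI] at this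

theorem q1_eq (p1 p2 : ℤ) : q1 (p1 + p2 * e6) = p1 := by
  have : ((p1 : ℂ) + p2 * e6).re - ((p1 : ℂ) + p2 * e6).im / √3 = p1 := by
    simp [e6]; field_simp; ring
  rw [q1, this, Int.floor_intCast]

theorem q2_eq (p1 p2 : ℤ) : q2 (p1 + p2 * e6) = p2 := by
  have : 2 * ((p1 : ℂ) + p2 * e6).im / √3 = p2 := by
    simp [e6]; field_simp
  rw [q2, this, Int.floor_intCast]

/-- the normalised charge -/
noncomputable def aE (E : HM W) : ℂ := Rr.zE E.pz / (-wI)

theorem Zf_aE (E : HM W) : -Zf E = wI * aE E := by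
  rw [aE, Zf_eq]; field_simp [wI_ne]

variable (W) in
/-- all normalised charges are Eisenstein integers -/
def IntZ : Prop := ∀ E : HM W, ∃ p1 p2 : ℤ, aE E = p1 + p2 * e6

theorem IntZ.eq (h : IntZ W) (E : HM W) : aE E = q1 (aE E) + q2 (aE E) * e6 := by
  obtain ⟨p1, p2, h⟩ := h E
  rw [h, q1_eq, q2_eq]

theorem IntZ.latD (h : IntZ W) : LatD (fun E : HM W => -Zf E) wI (wI * e6)
    (fun E => q1 (aE E)) fun E => q2 (aE E) where
  ind := by
    have : (0 : ℝ) < √3 := by positivity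
    have h3 : (√3 : ℝ) * √3 = 3 := Real.mul_self_sqrt (by norm_num)
    simp only [wI, e6, Complex.mul_re, Complex.mul_im]
    nlinarith
  eq E := by
    rw [Zf_aE]
    conv_lhs => rw [h.eq E]
    ring

/-- primitive normalised charge -/
def Pm (E : HM W) : Prop := IsCoprime (q1 (aE E)) (q2 (aE E))

section

variable (c : Rr.Cu W) (h : IntZ W) {φ : ℝ} {E F : HM W}
include h

theorem simW (hE : (sgW c).P φ E) (p : Pm E) :
    Sim (Uo (sgW c) (φ - 1)) ((sgW c).Vc (φ - 1)) E := h.latD.sim (stabW c) hE p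

theorem schurW (hE : (sgW c).P φ E) (hF : (sgW c).P φ F) (p : Pm E) (p' : Pm F) {f : E ⟶ F}
    (hf : f ≠ 0) : IsIso f := h.latD.schur (stabW c) hE hF p p' hf

include c in
theorem neW (p : Pm E) : ¬ IsZero E := h.latD.ne (stabW c).add p

/-- a stable object with `χ = 0` has the self-extensions of a point -/
theorem ptW (hE : (sgW c).P φ E) (p : Pm E) (h0 : chi E E = 0) : Df.Pt W E.pz E.dz := by
  obtain ⟨-, d0, d1, d2, d3⟩ := h.latD.dims (cy2 c) (stabW c) hE p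
  refine ⟨E.isMF, fun g hg => ?_, ?_, ?_, ?_⟩
  · exact (mkT_eq_zero (3 * (-1)) hg).1 ((cy2 c).fr_zero.1 (d3 (-1) (Or.inl (by norm_num))) _)
  · exact (hd_eq E E 0).symm.trans d0
  · have := hd_eq E E 1
    rw [h0] at d1
    change finrank ℂ (HH E.pz E.dz E.pz E.dz (3 * 1)) = 2
    omega
  · exact ((hd_eq E E 2).symm.trans d2).le

/-- non isomorphic stable objects of the same phase with `χ = 0` have no maps in any degree -/
theorem orthW (hE : (sgW c).P φ E) (hF : (sgW c).P φ F) (p : Pm E) (p' : Pm F)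
    (hne : IsEmpty (E ≅ F)) (h0 : chi E F = 0) (k : ℤ) : hd E F k = 0 := by
  obtain ⟨d0, d1⟩ := h.latD.orth (cy2 c) (stabW c) hE hF p p' hne
  by_cases e : k = 1
  · rw [e]; omega
  · exact d0 k e

end

/-- a nonzero semistable object can be shifted to any phase allowed by its charge -/
theorem phaseW (c : Rr.Cu W) {φ ψ : ℝ} {E F : HM W} (hE : (sgW c).P φ E) (hF : (sgW c).P ψ F)
    (h0 : ¬ IsZero E) (hZ : Rr.zE E.pz = Rr.zE F.pz) :
    ∃ k : ℤ, ψ = φ + 2 * k ∧ (sgW c).P φ (F⟦-(2 * k)⟧) := by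
  obtain ⟨k, hk⟩ := phase_eq (stabW c) hE hF h0 (by simp only [Zf_eq, hZ])
  refine ⟨k, hk, ?_⟩
  have := ((sgW c).shiftP_int ψ (-(2 * k)) F).2 hF
  rwa [show ψ + ((-(2 * k) : ℤ) : ℝ) = φ by rw [hk]; push_cast; ring] at this

end Vale.Agent.P287T.Sw
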