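import Vale.Agent.P287T.Op.Uo

/-!
# The fixed heart of the switch: abstract layer

`Hrt U V x y`: a bounded t-structure with noetherian heart `A = Ht U V` and an integral
stability function `x + i y` on it.
-/

set_option linter.unusedSectionVars false

open CategoryTheory CategoryTheory.Pretriangulated CategoryTheory.Limits

namespace Vale.Agent.P287T.Sw

open Vale.Agent.P294 Vale.Agent.P287T.Op

universe v u

variable {C : Type u} [Category.{v} C] [Preadditive C] [HasZeroObject C] [HasShift C ℤ]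
  [∀ n : ℤ, (shiftFunctor C n).Additive] [Pretriangulated C] [IsTriangulated C]

/-- short exact sequence in the heart -/
structure Ses (U V : C → Prop) (F E Q : C) : Prop where
  tr : A2bTr F E Q
  h1 : Ht U V F
  h3 : Ht U V Q

/-- objects of the heart of the top phase -/
def P1 (U V : C → Prop) (y : C → ℤ) (X : C) : Prop := Ht U V X ∧ y X = 0

/-- simple objects of the heart -/
structure Sim (U V : C → Prop) (X : C) : Prop where
  ht : Ht U V X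
  ne : ¬ IsZero X
  sim : ∀ F Q, Ses U V F X Q → IsZero F ∨ IsZero Q

/-- no maps from the top phase -/
def TF (U V : C → Prop) (y : C → ℤ) (E : C) : Prop :=
  ∀ T, P1 U V y T → ∀ f : T ⟶ E, f = 0

/-- a bounded noetherian heart with an integral stability function -/
structure Hrt (U V : C → Prop) (x y : C → ℤ) : Prop where
  ts : IsTS U V
  bdd : ∀ X : C, ∃ n : ℕ, U (X⟦(n : ℤ)⟧) ∧ V (X⟦-(n : ℤ)⟧)
  xadd : AddTri x
  yadd : AddTri y
  ypos : ∀ X, Ht U V X → 0 ≤ y X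
  xneg : ∀ X, P1 U V y X → ¬ IsZero X → x X < 0
  acc : ACC (fun X => U (X⟦(-1 : ℤ)⟧)) fun X => V (X⟦(-1 : ℤ)⟧)
  top : ∀ X, Ht U V X → ∃ T F, Ses U V T X F ∧ P1 U V y T ∧ TF U V y F
  bound : ∀ E, Ht U V E → TF U V y E → ∃ K : ℤ, ∀ F Q, Ses U V F E Q → -K ≤ x F

theorem addZ {x : C → ℤ} (h : AddTri x) {X Y W : C} (t : A2bTr X Y W) : x Y = x X + x W := by
  obtain ⟨_, _, _, hT⟩ := t
  exact h _ hT

theorem A2bTr.rot {X Y W : C} (t : A2bTr X Y W) : A2bTr Y W (X⟦(1 : ℤ)⟧) := by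
  obtain ⟨_, _, _, hT⟩ := t
  exact ⟨_, _, _, rot_of_distTriang _ hT⟩

theorem A2bTr.irot {X Y W : C} (t : A2bTr X Y W) : A2bTr (W⟦(-1 : ℤ)⟧) X Y := by
  obtain ⟨_, _, _, hT⟩ := t
  exact ⟨_, _, _, inv_rot_of_distTriang _ hT⟩

theorem A2bTr.sh {X Y W : C} (t : A2bTr X Y W) (n : ℤ) : A2bTr (X⟦n⟧) (Y⟦n⟧) (W⟦n⟧) := by
  obtain ⟨_, _, _, hT⟩ := t
  exact ⟨_, _, _, Triangle.shift_distinguished _ hT n⟩

theorem A2bTr.iso {X Y W X' Y' W' : C} (t : A2bTr X Y W) (a : X ≅ X') (b : Y ≅ Y')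
    (c : W ≅ W') : A2bTr X' Y' W' := by
  obtain ⟨f, g, d, hT⟩ := t
  exact ⟨a.inv ≫ f ≫ b.hom, b.inv ≫ g ≫ c.hom, c.inv ≫ d ≫ a.hom⟦(1 : ℤ)⟧',
    tri_iso hT a.symm b.symm c.symm (by simp) (by simp) (by simp [← Functor.map_comp])⟩

/-- `X[a][b] ≅ X[c]` -/
noncomputable def shI (X : C) (a b c : ℤ) (h : a + b = c) : (X⟦a⟧)⟦b⟧ ≅ X⟦c⟧ :=
  ((shiftFunctorAdd' C a b c h).app X).symm

/-- `X[0] ≅ X` -/
noncomputable def sh0 (X : C) : X⟦(0 : ℤ)⟧ ≅ X := (shiftFunctorZero C ℤ).app X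

section ts

variable {U V : C → Prop} (h : IsTS U V)
include h

theorem shU_nat {X : C} (hX : U X) (n : ℕ) : U (X⟦(n : ℤ)⟧) := by
  induction n with
  | zero => exact h.isoU (sh0 X).symm hX
  | succ n ih => exact h.isoU (shI X n 1 _ (by push_cast; ring)) (h.shU ih)

theorem shV_nat {X : C} (hX : V X) (n : ℕ) : V (X⟦-(n : ℤ)⟧) := by
  induction n with
  | zero => exact h.isoV (sh0 X).symm hX
  | succ n ih => exact h.isoV (shI X (-n) (-1) _ (by push_cast; ring)) (h.shV ih)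

theorem shU_le {X : C} {a b : ℤ} (hab : a ≤ b) (hX : U (X⟦a⟧)) : U (X⟦b⟧) := by
  obtain ⟨n, rfl⟩ := Int.le.dest hab
  exact h.isoU (shI X a n _ rfl) (shU_nat h hX n)

theorem shV_le {X : C} {a b : ℤ} (hab : a ≤ b) (hX : V (X⟦b⟧)) : V (X⟦a⟧) := by
  obtain ⟨n, rfl⟩ := Int.le.dest hab
  exact h.isoV (shI X (a + n) (-n) _ (by ring)) (shV_nat h hX n)

theorem ht_iso {X Y : C} (e : X ≅ Y) (hX : Ht U V X) : Ht U V Y :=
  ⟨h.isoU e hX.1, h.isoV ((shiftFunctor C (-1 : ℤ)).mapIso e) hX.2⟩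

theorem ht_zero {X : C} (hX : IsZero X) : Ht U V X :=
  ⟨h.zeroU hX, h.zeroV ((shiftFunctor C (-1 : ℤ)).map_isZero hX)⟩

theorem ht_ext {X Y W : C} (t : A2bTr X Y W) (h1 : Ht U V X) (h3 : Ht U V W) : Ht U V Y :=
  ⟨h.a2bTrU t h1.1 h3.1, (h.shifted (-1)).a2bTrV t h1.2 h3.2⟩

theorem Ses.h2 {F E Q : C} (s : Ses U V F E Q) : Ht U V E := ht_ext h s.tr s.h1 s.h3

/-- no negative extensions -/
theorem hom_neg {X Y : C} (hX : U X) (hY : V (Y⟦(-1 : ℤ)⟧)) {k : ℤ} (hk : k < 0)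
    (f : X ⟶ Y⟦k⟧) : f = 0 :=
  h.hom hX (shV_le h (by omega) hY) f

theorem hom_pos {X Y : C} (hX : U X) (hY : V (Y⟦(-1 : ℤ)⟧)) {k : ℤ} (hk : 0 < k)
    (f : X⟦k⟧ ⟶ Y) : f = 0 := by
  refine (h.shifted (-1)).hom (X := X⟦k⟧) ?_ hY f
  exact h.isoU (shI X k (-1) (k - 1) (by ring)).symm
    (shU_le h (by omega) (h.isoU (sh0 X).symm hX))

/-- the first map of a short exact sequence is a monomorphism of the heart -/
theorem mono {F E Q T : C} {f : F ⟶ E} {g : E ⟶ Q} {d : Q ⟶ F⟦(1 : ℤ)⟧}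
    (hT : Triangle.mk f g d ∈ distTriang C) (hQ : V (Q⟦(-1 : ℤ)⟧)) (hU : U T) (a : T ⟶ F)
    (ha : a ≫ f = 0) : a = 0 := by
  obtain ⟨b, hb⟩ := Triangle.coyoneda_exact₂ _ (inv_rot_of_distTriang _ hT) a ha
  have hb0 : b = 0 := h.hom hU hQ b
  subst hb0
  exact hb.trans zero_comp

/-- the second map of a short exact sequence is an epimorphism of the heart -/
theorem epi {F E Q T : C} {f : F ⟶ E} {g : E ⟶ Q} {d : Q ⟶ F⟦(1 : ℤ)⟧}
    (hT : Triangle.mk f g d ∈ distTriang C) (hF : U F) (hV : V (T⟦(-1 : ℤ)⟧)) (a : Q ⟶ T)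
    (ha : g ≫ a = 0) : a = 0 := by
  obtain ⟨b, hb⟩ := a2b_yon3 hT a ha
  rw [hb, hom_pos h hF hV one_pos b, comp_zero]

theorem Ses.iso {F E Q F' E' Q' : C} (s : Ses U V F E Q) (a : F ≅ F') (b : E ≅ E')
    (c : Q ≅ Q') : Ses U V F' E' Q' :=
  ⟨A2bTr.iso s.tr a b c, ht_iso h a s.h1, ht_iso h c s.h3⟩

/-- a subobject of a subobject -/
theorem Ses.sub_sub {F E Q F' Q' : C} (s : Ses U V F E Q) (s' : Ses U V F' F Q') :
    ∃ R, Ses U V F' E R ∧ Ses U V Q' R Q := by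
  obtain ⟨R, t1, t2⟩ := s.tr.oct1 s'.tr
  exact ⟨R, ⟨t1, s'.h1, ht_ext h t2 s'.h3 s.h3⟩, ⟨t2, s'.h3, s.h3⟩⟩

/-- a quotient of a quotient -/
theorem Ses.quot_quot {F E Q F' Q' : C} (s : Ses U V F E Q) (s' : Ses U V F' Q Q') :
    ∃ G, Ses U V G E Q' ∧ Ses U V F G F' := by
  obtain ⟨G, t1, t2⟩ := s.tr.oct2 s'.tr
  exact ⟨G, ⟨t1, ht_ext h t2 s.h1 s'.h1, s'.h3⟩, ⟨t2, s.h1, s'.h1⟩⟩

theorem Sim.iso {S S' : C} (hS : Sim U V S) (e : S ≅ S') : Sim U V S' :=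
  ⟨ht_iso h e hS.ht, fun h0 => hS.ne (h0.of_iso e), fun F Q s =>
    hS.sim F Q (s.iso h (Iso.refl _) e.symm (Iso.refl _))⟩

/-- a nonzero map from a simple object is a monomorphism -/
theorem Sim.from {S X : C} (hS : Sim U V S) (hX : Ht U V X) {f : S ⟶ X} (hf : f ≠ 0) :
    ∃ (Q : C) (g : X ⟶ Q) (d : Q ⟶ S⟦(1 : ℤ)⟧), Triangle.mk f g d ∈ distTriang C ∧
      Ht U V Q := by
  obtain ⟨K, I, Q, k, p, m, q, d, d', hK, hI, h1, h2, h3, rfl⟩ := heart_factor h hS.ht hX f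
  rcases hS.sim K I ⟨⟨_, _, _, hK⟩, h1, h2⟩ with h0 | h0
  · have : IsIso p := (Cc.isIso ⟨k, d, hK⟩).2 h0
    exact ⟨Q, q, d' ≫ (inv p)⟦(1 : ℤ)⟧', tri_iso hI (asIso p) (Iso.refl _) (Iso.refl _)
      (by simp) (by simp) (by simp), h3⟩
  · exact absurd (by rw [h0.eq_of_tgt p 0, zero_comp]) hf

/-- a nonzero map to a simple object is an epimorphism -/
theorem Sim.to {S X : C} (hS : Sim U V S) (hX : Ht U V X) {f : X ⟶ S} (hf : f ≠ 0) :
    ∃ (K : C) (k : K ⟶ X) (d : S ⟶ K⟦(1 : ℤ)⟧), Triangle.mk k f d ∈ distTriang C ∧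
      Ht U V K := by
  obtain ⟨K, I, Q, k, p, m, q, d, d', hK, hI, h1, h2, h3, rfl⟩ := heart_factor h hX hS.ht f
  rcases hS.sim I Q ⟨⟨_, _, _, hI⟩, h2, h3⟩ with h0 | h0
  · exact absurd (by rw [h0.eq_of_tgt p 0, zero_comp]) hf
  · have : IsIso m := (Cn.isIso ⟨q, d', hI⟩).2 h0
    exact ⟨K, k, inv m ≫ d, tri_iso hK (Iso.refl _) (Iso.refl _) (asIso m).symm
      (by simp) (by simp) (by simp), h1⟩

/-- Schur's lemma -/
theorem Sim.schur {S S' : C} (hS : Sim U V S) (hS' : Sim U V S') {f : S ⟶ S'} (hf : f ≠ 0) :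
    IsIso f := by
  obtain ⟨Q, g, d, hT, hQ⟩ := hS.from h hS'.ht hf
  rcases hS'.sim S Q ⟨⟨_, _, _, hT⟩, hS.ht, hQ⟩ with h0 | h0
  · exact absurd h0 hS.ne
  · exact (Cn.isIso ⟨g, d, hT⟩).2 h0

/-- cohomology in degrees `m ≤ i ≤ n` -/
def Wd (U V : C → Prop) (m n : ℤ) (X : C) : Prop := U (X⟦n⟧) ∧ V (X⟦m - 1⟧)

theorem Wd.zero {m n : ℤ} (hmn : n < m) {X : C} (hX : Wd U V m n X) : IsZero X := by
  have := h.isZero (shU_le h (by omega) hX.1) hX.2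
  exact (((shiftFunctor C (-(m - 1))).map_isZero this).of_iso
    ((shI X (m - 1) (-(m - 1)) 0 (by ring)) ≪≫ sh0 X).symm)

theorem Wd.mono {m n m' n' : ℤ} (hm : m' ≤ m) (hn : n ≤ n') {X : C} (hX : Wd U V m n X) :
    Wd U V m' n' X := ⟨shU_le h hn hX.1, shV_le h (by omega) hX.2⟩

theorem wd_ht {n : ℤ} {X : C} : Wd U V n n X ↔ Ht U V (X⟦n⟧) :=
  ⟨fun hX => ⟨hX.1, h.isoV (shI X n (-1) _ (by ring)).symm hX.2⟩,
    fun hX => ⟨hX.1, h.isoV (shI X n (-1) _ (by ring)) hX.2⟩⟩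

theorem wd_zero {X : C} : Wd U V 0 0 X ↔ Ht U V X :=
  (wd_ht h).trans ⟨ht_iso h (sh0 X), ht_iso h (sh0 X).symm⟩

theorem Wd.ext {m n : ℤ} {X Y W : C} (t : A2bTr X Y W) (h1 : Wd U V m n X)
    (h3 : Wd U V m n W) : Wd U V m n Y :=
  ⟨(h.shifted n).a2bTrU t h1.1 h3.1, (h.shifted (m - 1)).a2bTrV t h1.2 h3.2⟩

/-- truncation inside a window -/
theorem Wd.cut {m n : ℤ} {X : C} (hX : Wd U V m n X) (k : ℤ) (h1 : m - 1 ≤ k) (h2 : k ≤ n) :
    ∃ A B, A2bTr A X B ∧ Wd U V m k A ∧ Wd U V (k + 1) n B := by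
  obtain ⟨A, B, f, g, d, hT, hA, hB⟩ := (h.shifted k).tri X
  refine ⟨A, B, ⟨_, _, _, hT⟩, ⟨hA, ?_⟩, ⟨?_, ?_⟩⟩
  · exact (h.shifted (m - 1)).ext1V hT hX.2
      (h.isoV (shI B (-1) (m - 1) (m - 2) (by ring)).symm (shV_le h (by omega) hB))
  · exact (h.shifted n).ext3U hT hX.1
      (h.isoU (shI A 1 n (n + 1) (by ring)).symm (shU_le h (by omega) hA))
  · simpa using hB

/-- maps between windows -/
theorem Wd.hom {m n m' n' : ℤ} {X Y : C} (hX : Wd U V m n X) (hY : Wd U V m' n' Y) {k : ℤ}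
    (hk : n + k < m') (f : X ⟶ Y⟦k⟧) : f = 0 := by
  refine (h.shifted n).hom hX.1 ?_ f
  exact h.isoV (shI Y k n (k + n) rfl).symm (shV_le h (by omega) hY.2)

end ts

namespace Hrt

variable {U V : C → Prop} {x y : C → ℤ} (H : Hrt U V x y)
include H

theorem wd (X : C) : ∃ m n, Wd U V m n X := by
  obtain ⟨n, h1, h2⟩ := H.bdd X
  exact ⟨-n + 1, n, h1, by simpa using h2⟩

theorem x_zero {X : C} (h : IsZero X) : x X = 0 := H.xadd.zeroG h
theorem y_zero {X : C} (h : IsZero X) : y X = 0 := H.yadd.zeroG h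

theorem p1_zero {X : C} (h : IsZero X) : P1 U V y X := ⟨ht_zero H.ts h, H.y_zero h⟩

theorem p1_iso {X Y : C} (e : X ≅ Y) (h : P1 U V y X) : P1 U V y Y :=
  ⟨ht_iso H.ts e h.1, (H.yadd.isoG e).symm.trans h.2⟩

theorem p1_sub {F E Q : C} (s : Ses U V F E Q) (h : P1 U V y E) : P1 U V y F := by
  have := addZ H.yadd s.tr
  have := H.ypos _ s.h1
  have := H.ypos _ s.h3
  exact ⟨s.h1, by have := h.2; omega⟩

theorem p1_quot {F E Q : C} (s : Ses U V F E Q) (h : P1 U V y E) : P1 U V y Q := by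
  have := addZ H.yadd s.tr
  have := H.ypos _ s.h1
  have := H.ypos _ s.h3
  exact ⟨s.h3, by have := h.2; omega⟩

theorem p1_ext {F E Q : C} (t : A2bTr F E Q) (h1 : P1 U V y F) (h3 : P1 U V y Q) :
    P1 U V y E :=
  ⟨ht_ext H.ts t h1.1 h3.1, by rw [addZ H.yadd t, h1.2, h3.2, add_zero]⟩

theorem x_nonpos {X : C} (h : P1 U V y X) : x X ≤ 0 := by
  by_cases h0 : IsZero X
  · exact (H.x_zero h0).le
  · exact (H.xneg X h h0).le

/-- `x = -1`, `y = 0` forces simplicity -/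
theorem sim_of_one {X : C} (h : P1 U V y X) (hx : x X = -1) : Sim U V X := by
  refine ⟨h.1, fun h0 => by have := H.x_zero h0; omega, fun F Q s => ?_⟩
  by_contra hc
  push Not at hc
  have := H.xneg F (H.p1_sub s h) hc.1
  have := H.xneg Q (H.p1_quot s h) hc.2
  have := addZ H.xadd s.tr
  omega

theorem exists_sub (X : C) (h : P1 U V y X) (h0 : ¬ IsZero X) :
    ∃ S Q, Ses U V S X Q ∧ Sim U V S := by
  induction hn : (-x X).toNat using Nat.strong_induction_on generalizing X with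
  | _ n ih =>
    by_cases hs : Sim U V X
    · obtain ⟨O, hO, t⟩ := A2bTr.id_zero X
      exact ⟨X, O, ⟨t, h.1, ht_zero H.ts hO⟩, hs⟩
    obtain ⟨F, Q, s, hF, hQ⟩ : ∃ F Q, Ses U V F X Q ∧ ¬ IsZero F ∧ ¬ IsZero Q := by
      by_contra hc
      refine hs ⟨h.1, h0, fun F Q s => ?_⟩
      by_contra hd
      push Not at hd
      exact hc ⟨F, Q, s, hd.1, hd.2⟩
    have h1 := H.xneg F (H.p1_sub s h) hF
    have h2 := H.xneg Q (H.p1_quot s h) hQ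
    have h3 := addZ H.xadd s.tr
    obtain ⟨S, Q', s', hS⟩ := ih (-x F).toNat (by omega) F (H.p1_sub s h) hF rfl
    obtain ⟨R, s1, -⟩ := s.sub_sub H.ts s'
    exact ⟨S, R, s1, hS⟩

theorem exists_quot (X : C) (h : P1 U V y X) (h0 : ¬ IsZero X) :
    ∃ K S, Ses U V K X S ∧ Sim U V S := by
  induction hn : (-x X).toNat using Nat.strong_induction_on generalizing X with
  | _ n ih =>
    by_cases hs : Sim U V X
    · obtain ⟨O, hO, t⟩ := A2bTr.zero_id X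
      exact ⟨O, X, ⟨t, ht_zero H.ts hO, h.1⟩, hs⟩
    obtain ⟨F, Q, s, hF, hQ⟩ : ∃ F Q, Ses U V F X Q ∧ ¬ IsZero F ∧ ¬ IsZero Q := by
      by_contra hc
      refine hs ⟨h.1, h0, fun F Q s => ?_⟩
      by_contra hd
      push Not at hd
      exact hc ⟨F, Q, s, hd.1, hd.2⟩
    have h1 := H.xneg F (H.p1_sub s h) hF
    have h2 := H.xneg Q (H.p1_quot s h) hQ
    have h3 := addZ H.xadd s.tr
    obtain ⟨K, S, s', hS⟩ := ih (-x Q).toNat (by omega) Q (H.p1_quot s h) hQ rfl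
    obtain ⟨G, s1, -⟩ := s.quot_quot H.ts s'
    exact ⟨G, S, s1, hS⟩

/-- Jordan-Hoelder induction in the top phase -/
theorem jh {M : C → Prop} (z : ∀ X, IsZero X → M X)
    (st : ∀ S X Q, Ses U V S X Q → Sim U V S → P1 U V y S → P1 U V y Q → M Q → M X)
    (X : C) (h : P1 U V y X) : M X := by
  induction hn : (-x X).toNat using Nat.strong_induction_on generalizing X with
  | _ n ih =>
    by_cases h0 : IsZero X
    · exact z X h0
    obtain ⟨S, Q, s, hS⟩ := H.exists_sub X h h0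
    have h1 := H.xneg S (H.p1_sub s h) hS.ne
    have h2 := H.x_nonpos (H.p1_quot s h)
    have h3 := addZ H.xadd s.tr
    exact st S X Q s hS (H.p1_sub s h) (H.p1_quot s h)
      (ih (-x Q).toNat (by omega) Q (H.p1_quot s h) rfl)

theorem tf_sub {F E Q : C} (s : Ses U V F E Q) (h : TF U V y E) : TF U V y F := by
  obtain ⟨⟨f, g, d, hT⟩, -, h3⟩ := s
  exact fun T hT' a => mono H.ts hT h3.2 hT'.1.1 a (h T hT' _)

theorem tf_zero {X : C} (h : TF U V y X) (h' : P1 U V y X) : IsZero X :=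
  (IsZero.iff_id_eq_zero X).2 (h X h' _)

theorem y_pos {X : C} (hX : Ht U V X) (h : TF U V y X) (h0 : ¬ IsZero X) : 0 < y X :=
  lt_of_le_of_ne (H.ypos X hX) fun e => h0 (H.tf_zero h ⟨hX, e.symm⟩)

/-- noetherian induction over quotients: there is no infinite chain of proper quotients -/
theorem noeth {M : C → Prop}
    (st : ∀ B, Ht U V B → M B → ∃ K B', Ses U V K B B' ∧ ¬ IsZero K ∧ M B') {B : C}
    (hB : Ht U V B) : ¬ M B := by
  intro hM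
  have key : ∀ p : {B // Ht U V B ∧ M B}, ∃ (q : {B // Ht U V B ∧ M B}) (g : p.1 ⟶ q.1),
      (∃ E, Cn g E ∧ U (E⟦(-1 : ℤ)⟧)) ∧ ¬ IsIso g := by
    rintro ⟨B, h1, h2⟩
    obtain ⟨K, B', ⟨⟨f, g, d, hT⟩, hK, hB'⟩, hne, hM'⟩ := st B h1 h2
    exact ⟨⟨B', hB', hM'⟩, g, ⟨_, Cc.cn ⟨f, d, hT⟩,
      H.ts.isoU (shiftShiftNeg K (1 : ℤ)).symm hK.1⟩,
      fun hg => hne ((Cc.isIso ⟨f, d, hT⟩).1 hg)⟩
  choose nx g hg hn using key
  let Y : ℕ → {B // Ht U V B ∧ M B} := fun n => Nat.rec ⟨B, hB, hM⟩ (fun _ p => nx p) n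
  obtain ⟨n, hn'⟩ := H.acc (fun n => (Y n).1) (fun n => g (Y n)) (fun n => (Y n).2.1.2)
    (fun n => hg (Y n))
  exact hn _ hn'

/-- a simple object family: only finitely many members map to a given object of the heart -/
theorem fin_hom {ι : Type*} {O : ι → C} (hO : ∀ q, Sim U V (O q)) (hy : ∀ q, y (O q) = 0)
    (hne : ∀ q q', Nonempty (O q ≅ O q') → q = q') {F : C} (hF : Ht U V F) :
    {q | ∃ f : O q ⟶ F, f ≠ 0}.Finite := by
  obtain ⟨T, F', ⟨⟨a, b, d, hT⟩, -, -⟩, h1, h2⟩ := H.top F hF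
  have key : {q | ∃ f : O q ⟶ T, f ≠ 0}.Finite := by
    refine H.jh (M := fun T => {q | ∃ f : O q ⟶ T, f ≠ 0}.Finite) (fun X hX => ?_)
      (fun S X Q s hS _ _ ih => ?_) T h1
    · refine Set.Finite.subset Set.finite_empty ?_
      rintro q ⟨f, hf⟩
      exact hf (hX.eq_of_tgt _ _)
    · obtain ⟨⟨i, p, e, hX⟩, -, -⟩ := s
      have hs : {q | Nonempty (O q ≅ S)}.Finite := Set.Subsingleton.finite
        fun q ⟨e⟩ q' ⟨e'⟩ => hne q q' ⟨e ≪≫ e'.symm⟩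
      refine (hs.union ih).subset ?_
      rintro q ⟨f, hf⟩
      by_cases h0 : f ≫ p = 0
      · obtain ⟨g, rfl⟩ := a2b_coyon2 hX f h0
        have : IsIso g := (hO q).schur H.ts hS fun h => hf (by rw [h, zero_comp])
        exact Or.inl ⟨asIso g⟩
      · exact Or.inr ⟨_, h0⟩
  refine key.subset ?_
  rintro q ⟨f, hf⟩
  obtain ⟨g, rfl⟩ := a2b_coyon2 hT f (h2 _ ⟨(hO q).ht, hy q⟩ _)
  exact ⟨g, fun h => hf (by rw [h, zero_comp])⟩

end Hrt

end Vale.Agent.P287T.Sw
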