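import Vale.Agent.P287T.Sw.Ht0
import Vale.Agent.P287T.Op.Open

/-!
# The heart `P(φ-1, φ]` of a stability condition with lattice valued charge
-/

set_option linter.unusedSectionVars false

open CategoryTheory CategoryTheory.Pretriangulated CategoryTheory.Limits

namespace Vale.Agent.P287T.Sw

open Vale.Agent.P294 Vale.Agent.P287T.Op

universe v u

variable {C : Type u} [Category.{v} C] [Preadditive C] [HasZeroObject C] [HasShift C ℤ]
  [∀ n : ℤ, (shiftFunctor C n).Additive] [Pretriangulated C] [IsTriangulated C]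

/-- integral coordinates of the central charge adapted to the direction `φ` -/
structure Crd (Z : C → ℂ) (φ : ℝ) (z0 z1 : ℂ) (x y : C → ℤ) : Prop where
  h0 : ∃ m : ℝ, 0 < m ∧ z0 = m * ray φ
  h1 : 0 < lam (φ - 1) z1
  eq : ∀ X, Z X = -(x X : ℂ) * z0 + (y X : ℂ) * z1

theorem mu_int (s : ℝ) (a b : ℤ) (z1 z2 : ℂ) :
    mu s (a * z1 + b * z2) = a * mu s z1 + b * mu s z2 := by
  simp only [mu_eq, Complex.add_re, Complex.add_im, Complex.mul_re, Complex.mul_im,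
    Complex.intCast_re, Complex.intCast_im]
  ring

theorem lam_sub1 (s : ℝ) (z : ℂ) : lam s z = - lam (s - 1) z := by
  have := lam_add_one (s - 1) z
  rwa [sub_add_cancel] at this

/-- explicit coordinates from a lattice basis and a primitive vector on the ray -/
theorem Crd.of {Z : C → ℂ} {φ m : ℝ} {w1 w2 : ℂ} {a b : C → ℤ} {p q u v : ℤ}
    (hZ : ∀ X, Z X = a X * w1 + b X * w2) (hw : w1.re * w2.im - w1.im * w2.re ≠ 0)
    (huv : u * p + v * q = 1) (hm : 0 < m) (h0 : p * w1 + q * w2 = m * ray φ) :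
    ∃ e : ℤ, (e = 1 ∨ e = -1) ∧ Crd Z φ (p * w1 + q * w2) (e * (-v * w1 + u * w2))
      (fun X => -(a X * u + b X * v)) (fun X => e * (p * b X - q * a X)) := by
  have huv' : (u : ℂ) * p + v * q = 1 := by exact_mod_cast huv
  have hl0 : lam (φ - 1) (p * w1 + q * w2) = 0 := by rw [h0, lam_mul_ray]; simp
  have hne : lam (φ - 1) ((-v : ℤ) * w1 + u * w2) ≠ 0 := by
    intro h1
    rw [lam_int] at hl0 h1
    have huv2 : (u : ℝ) * p + v * q = 1 := by exact_mod_cast huv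
    push_cast at h1
    have e1 : lam (φ - 1) w1 = 0 := by linear_combination u * hl0 - q * h1 - lam (φ - 1) w1 * huv2
    have e2 : lam (φ - 1) w2 = 0 := by linear_combination v * hl0 + p * h1 - lam (φ - 1) w2 * huv2
    rw [lam_eq] at e1 e2
    apply hw
    have := Real.sin_sq_add_cos_sq (Real.pi * (φ - 1))
    set s := Real.sin (Real.pi * (φ - 1))
    set c := Real.cos (Real.pi * (φ - 1))
    linear_combination (c * w1.re + s * w1.im) * e2 - (c * w2.re + s * w2.im) * e1 -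
      (w1.re * w2.im - w1.im * w2.re) * this
  push_cast at hne
  rcases lt_or_gt_of_ne hne with h | h
  · refine ⟨-1, Or.inr rfl, ⟨m, hm, h0⟩, ?_, fun X => ?_⟩
    · push_cast
      rw [neg_one_mul, P294.lam_neg]; linarith
    · rw [hZ]; push_cast
      linear_combination (-(a X : ℂ) * w1 - b X * w2) * huv'
  · refine ⟨1, Or.inl rfl, ⟨m, hm, h0⟩, by simpa using h, fun X => ?_⟩
    rw [hZ]; push_cast
    linear_combination (-(a X : ℂ) * w1 - b X * w2) * huv'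

variable {σ : Slic C} {Z : C → ℂ} {r : C → ℕ} {c φ : ℝ} {z0 z1 : ℂ} {x y : C → ℤ}

theorem ht_iff {X : C} : Ht (Uo σ (φ - 1)) (σ.Vc (φ - 1)) X ↔ Uo σ (φ - 1) X ∧ σ.Vc φ X := by
  have := σ.shiftVc_int φ (-1) X
  push_cast at this
  rw [Ht, ← this, sub_eq_add_neg]

theorem Uo_mono {s t : ℝ} (h : s ≤ t) {X : C} (hX : Uo σ t X) : Uo σ s X := by
  obtain ⟨a, ha, hX⟩ := hX
  exact ⟨a, by linarith, hX⟩

theorem Uo_shift (s : ℝ) (n : ℤ) (X : C) : Uo σ (s + n) (X⟦n⟧) ↔ Uo σ s X :=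
  ⟨fun ⟨t, ht, h⟩ => ⟨t - n, by linarith, (σ.shiftU_int _ n X).1 (by simpa using h)⟩,
    fun ⟨t, ht, h⟩ => ⟨t + n, by linarith, (σ.shiftU_int _ n X).2 h⟩⟩

theorem ht_of_P {ψ : ℝ} (h1 : φ - 1 < ψ) (h2 : ψ ≤ φ) {X : C} (hX : σ.P ψ X) :
    Ht (Uo σ (φ - 1)) (σ.Vc (φ - 1)) X :=
  ht_iff.2 ⟨⟨ψ, h1, hX.1⟩, fun t ht => hX.2 t (by linarith)⟩

namespace Crd

variable (k : Crd Z φ z0 z1 x y)
include k

theorem lam_s (s : ℝ) (X : C) : lam s (Z X) = -(x X) * lam s z0 + y X * lam s z1 := by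
  have := lam_int s (-x X) (y X) z0 z1
  push_cast at this
  rw [k.eq, this]

theorem mu_s (s : ℝ) (X : C) : mu s (Z X) = -(x X) * mu s z0 + y X * mu s z1 := by
  have := mu_int s (-x X) (y X) z0 z1
  push_cast at this
  rw [k.eq, this]

theorem lam0 : lam φ z0 = 0 := by
  obtain ⟨m, -, h⟩ := k.h0
  rw [h, lam_mul_ray]; simp

theorem mu0 : 0 < mu φ z0 := by
  obtain ⟨m, hm, h⟩ := k.h0
  rw [h, mu_mul_ray]; simpa using hm

theorem lam1 : lam φ z1 < 0 := by rw [lam_sub1]; linarith [k.h1]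

theorem lam_y (X : C) : lam φ (Z X) = y X * lam φ z1 := by rw [k.lam_s, k.lam0]; ring

theorem yadd (h : AddTri Z) : AddTri y := fun T hT => by
  have := h.lam φ T hT
  simp only [k.lam_y] at this
  have h2 : (y T.obj₂ : ℝ) = y T.obj₁ + y T.obj₃ :=
    mul_right_cancel₀ k.lam1.ne (by linarith)
  exact_mod_cast h2

theorem xadd (h : AddTri Z) : AddTri x := fun T hT => by
  have := h.mu φ T hT
  simp only [k.mu_s] at this
  have h1 : (y T.obj₂ : ℝ) = y T.obj₁ + y T.obj₃ := by exact_mod_cast k.yadd h T hT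
  rw [h1] at this
  have h2 : (x T.obj₂ : ℝ) = x T.obj₁ + x T.obj₃ :=
    mul_right_cancel₀ k.mu0.ne' (by linarith)
  exact_mod_cast h2

theorem dis : Dis Z φ := by
  refine ⟨-lam φ z1, by linarith [k.lam1], fun X => ?_⟩
  rw [k.lam_y]
  by_cases h : y X = 0
  · left; simp [h]
  · right
    rw [abs_mul, abs_of_neg k.lam1]
    have : (1 : ℝ) ≤ |(y X : ℝ)| := by exact_mod_cast Int.one_le_abs h
    nlinarith [k.lam1]

theorem p1_iff (h : Stab σ Z r c) {X : C} :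
    P1 (Uo σ (φ - 1)) (σ.Vc (φ - 1)) y X ↔ σ.P φ X := by
  constructor
  · rintro ⟨h1, h2⟩
    rw [ht_iff] at h1
    exact ⟨(lam_lo h h1.1 h1.2).2 (by rw [k.lam_y, h2]; simp), h1.2⟩
  · intro hP
    refine ⟨ht_of_P (by linarith) le_rfl hP, ?_⟩
    have := lam_P h hP
    rw [k.lam_y] at this
    exact_mod_cast (mul_eq_zero.1 this).resolve_right k.lam1.ne

theorem ypos (h : Stab σ Z r c) {X : C} (hX : Ht (Uo σ (φ - 1)) (σ.Vc (φ - 1)) X) :
    0 ≤ y X := by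
  rw [ht_iff] at hX
  have := (lam_lo h hX.1 hX.2).1
  rw [k.lam_y] at this
  have h2 : (0 : ℝ) ≤ y X := by nlinarith [k.lam1]
  exact_mod_cast h2

theorem top (h : Stab σ Z r c) {X : C} (hX : Ht (Uo σ (φ - 1)) (σ.Vc (φ - 1)) X) :
    ∃ T F, Ses (Uo σ (φ - 1)) (σ.Vc (φ - 1)) T X F ∧ σ.P φ T ∧ σ.V φ F := by
  rw [ht_iff] at hX
  obtain ⟨⟨a, ha, h1⟩, h2⟩ := hX
  obtain ⟨A, B, t, hA, hB⟩ := trunc σ φ X
  have hP : σ.P φ A := ⟨hA, subVc σ t h2 hB (by linarith)⟩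
  exact ⟨A, B, ⟨t, ht_of_P (by linarith) le_rfl hP, ht_iff.2 ⟨⟨min a φ, lt_min ha (by linarith),
    quotU σ t (σ.anti (min_le_left _ _) _ h1) hA (by linarith [min_le_right a φ])⟩,
    σ.V_le_Vc le_rfl hB⟩⟩, hP, hB⟩

theorem tf_iff (h : Stab σ Z r c) {X : C} (hX : Ht (Uo σ (φ - 1)) (σ.Vc (φ - 1)) X) :
    TF (Uo σ (φ - 1)) (σ.Vc (φ - 1)) y X ↔ σ.V φ X := by
  refine ⟨fun hT => ?_, fun hV T hT f => (σ.ts φ).hom ((k.p1_iff h).1 hT).1 hV f⟩
  obtain ⟨T, F, ⟨⟨f, g, d, hf⟩, h1, h3⟩, hP, hV⟩ := k.top h hX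
  have h0 : IsZero T := (IsZero.iff_id_eq_zero T).2 (mono (ts_o h _) hf h3.2 h1.1 _
    (by rw [hT T ((k.p1_iff h).2 hP) f, comp_zero]))
  obtain ⟨e⟩ := tr_iso2 ⟨_, _, _, hf⟩ h0
  exact (σ.ts φ).isoV e.symm hV

/-- the heart of phases in `(φ - 1, φ]` -/
theorem hrt (h : Stab σ Z r c) : Hrt (Uo σ (φ - 1)) (σ.Vc (φ - 1)) x y where
  ts := ts_o h _
  bdd X := by
    obtain ⟨a, b, ha, hb⟩ := σ.bdd X
    obtain ⟨n, hn⟩ := exists_nat_gt (max (φ - a) (b - φ + 1))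
    have h1 := lt_of_le_of_lt (le_max_left _ _) hn
    have h2 := lt_of_le_of_lt (le_max_right _ _) hn
    refine ⟨n, ⟨a + (n : ℤ), by push_cast; linarith, (σ.shiftU_int a n X).2 ha⟩,
      σ.V_le_Vc (s := b + (-(n : ℤ) : ℤ)) (by push_cast; linarith) ((σ.shiftV_int b _ X).2 hb)⟩
  xadd := k.xadd h.add
  yadd := k.yadd h.add
  ypos X hX := k.ypos h hX
  xneg X hX h0 := by
    have h1 := mu_P h ((k.p1_iff h).1 hX)
    rw [k.mu_s, hX.2] at h1
    have h2 := r_pos h h0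
    have h3 : (x X : ℝ) < 0 := by
      push_cast at h1
      nlinarith [k.mu0, h.cpos]
    exact_mod_cast h3
  acc Y f hY hE := by
    refine acc h k.dis Y f (fun n => ?_) fun n => ?_
    · have := σ.shiftVc_int φ (-1) (Y n)
      push_cast at this
      exact this.1 (by simpa [sub_eq_add_neg] using hY n)
    · obtain ⟨E, h1, h2⟩ := hE n
      have := Uo_shift (σ := σ) φ (-1) E
      push_cast at this
      exact ⟨E, h1, this.1 (by simpa [sub_eq_add_neg] using h2)⟩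
  top X hX := by
    obtain ⟨T, F, s, hP, hV⟩ := k.top h hX
    exact ⟨T, F, s, (k.p1_iff h).2 hP, (k.tf_iff h s.h3).2 hV⟩
  bound E hE hT := by
    obtain ⟨t, ht, hV⟩ := V_Vc h ((k.tf_iff h hE).1 hT)
    set t' := max t (φ - 1 / 2) with ht'
    have t1 : t' < φ := max_lt ht (by linarith)
    have t2 : φ - 1 / 2 ≤ t' := le_max_right _ _
    have hV' : σ.Vc t' E := fun s hs => hV s (lt_of_le_of_lt (le_max_left _ _) hs)
    have ha : 0 < lam t' z0 := by
      obtain ⟨m, hm, h0⟩ := k.h0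
      rw [h0, lam_mul_ray]
      exact mul_pos hm (Real.sin_pos_of_pos_of_lt_pi (by nlinarith [Real.pi_pos])
        (by nlinarith [Real.pi_pos]))
    refine ⟨⌈|lam t' z1| * y E / lam t' z0⌉, fun F Q s => ?_⟩
    have hQ := (ht_iff.1 s.h3).2 (φ + 1 / 2) (by linarith)
    have h1 := (lam_lo h (Uo_mono (by linarith) (ht_iff.1 s.h1).1)
      (subVc σ s.tr hV' hQ (by linarith))).1
    rw [k.lam_s] at h1
    have y1 : (0 : ℝ) ≤ y F := by exact_mod_cast k.ypos h s.h1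
    have y2 : (y F : ℝ) ≤ y E := by
      have := addZ (k.yadd h.add) s.tr
      have := k.ypos h s.h3
      exact_mod_cast (by omega : y F ≤ y E)
    have h2 : -(x F : ℝ) ≤ |lam t' z1| * y E / lam t' z0 := by
      rw [le_div_iff₀ ha]
      nlinarith [neg_abs_le (lam t' z1), abs_nonneg (lam t' z1)]
    have h3 := h2.trans (Int.le_ceil _)
    have h4 : -x F ≤ ⌈|lam t' z1| * y E / lam t' z0⌉ := by exact_mod_cast h3
    omega

theorem cross {ψ m : ℝ} {E : C} (hE : Z E = m * ray ψ) (F : C) :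
    m * lam ψ (Z F) = mu φ z0 * lam φ z1 * (y E * x F - y F * x E) := by
  have e1 := k.lam_y E
  have e2 := k.mu_s φ E
  have f1 := k.lam_y F
  have f2 := k.mu_s φ F
  rw [hE, lam_mul_ray] at e1
  rw [hE, mu_mul_ray] at e2
  have h : lam ψ (Z F) = Real.cos (Real.pi * (ψ - φ)) * lam φ (Z F) -
      Real.sin (Real.pi * (ψ - φ)) * mu φ (Z F) := by
    simp only [lam_eq, mu_eq, mul_sub, Real.sin_sub, Real.cos_sub]
    have := Real.sin_sq_add_cos_sq (Real.pi * φ)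
    linear_combination (Real.sin (Real.pi * ψ) * (Z F).re -
      Real.cos (Real.pi * ψ) * (Z F).im) * this
  rw [h, f1, f2]
  linear_combination (y F * lam φ z1) * e2 - (-(x F) * mu φ z0 + y F * mu φ z1) * e1

/-- an object of the heart without destabilising subobjects is semistable -/
theorem ss_of_sub (h : Stab σ Z r c) {E : C} (hE : Ht (Uo σ (φ - 1)) (σ.Vc (φ - 1)) E)
    (hs : ∀ F Q, Ses (Uo σ (φ - 1)) (σ.Vc (φ - 1)) F E Q → ¬ IsZero F → ¬ IsZero Q →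
      0 ≤ y E * x F - y F * x E) : ∃ ψ, φ - 1 < ψ ∧ ψ ≤ φ ∧ σ.P ψ E := by
  by_cases hy : y E = 0
  · exact ⟨φ, by linarith, le_rfl, (k.p1_iff h).1 ⟨hE, hy⟩⟩
  have hy' : lam φ (Z E) < 0 := by
    rw [k.lam_y]
    have : (0 : ℝ) < y E := by exact_mod_cast lt_of_le_of_ne (k.ypos h hE) (Ne.symm hy)
    nlinarith [k.lam1]
  obtain ⟨ψ, m, h1, h2, hm, hZ⟩ : ∃ ψ m : ℝ, φ - 1 < ψ ∧ ψ < φ ∧ 0 < m ∧ Z E = m * ray ψ := by
    set w := ray (-φ) * Z E with hw
    have hi : w.im < 0 := hy'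
    have hw0 : w ≠ 0 := fun h0 => by simp [h0] at hi
    have a1 : w.arg < 0 := Complex.arg_neg_iff.2 hi
    have a2 : -Real.pi < w.arg := Complex.neg_pi_lt_arg w
    refine ⟨φ + w.arg / Real.pi, ‖w‖, ?_, ?_, norm_pos_iff.2 hw0, ?_⟩
    · have : -1 < w.arg / Real.pi := by rw [lt_div_iff₀ Real.pi_pos]; linarith
      linarith
    · have : w.arg / Real.pi < 0 := div_neg_of_neg_of_pos a1 Real.pi_pos
      linarith
    · have e1 : ray (w.arg / Real.pi) = Complex.exp (w.arg * Complex.I) := by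
        rw [ray, mul_div_cancel₀ _ Real.pi_ne_zero, mul_comm]
      have e2 : Z E = ray φ * w := by
        rw [hw, ← mul_assoc, ← ray_add, add_neg_cancel, ray_zero, one_mul]
      rw [ray_add, e1, e2]
      conv_lhs => rw [← Complex.norm_mul_exp_arg_mul_I w]
      ring
  obtain ⟨⟨a, ha, hU⟩, hV⟩ := ht_iff.1 hE
  obtain ⟨A, B, t, ⟨b, hb, hA⟩, hB⟩ := trunc_o h ψ E
  have hAV : σ.Vc φ A := subVc σ t hV (hB φ h2) (by linarith)
  have hl : lam ψ (Z E) = 0 := by rw [hZ, lam_mul_ray]; simp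
  have hA0 : IsZero A := by
    by_contra h0
    have p1 := h.lam_pos (s := ψ) hb (by linarith) hA hAV h0
    by_cases hB0 : IsZero B
    · obtain ⟨e⟩ := tr_iso1 t hB0
      rw [h.add.isoC e] at p1
      linarith
    have p2 := hs A B ⟨t, ht_iff.2 ⟨⟨b, by linarith, hA⟩, hAV⟩, ht_iff.2
      ⟨⟨min a b, lt_min ha (by linarith), quotU σ t (σ.anti (min_le_left _ _) _ hU) hA
        (by linarith [min_le_right a b])⟩, fun s hs => hB s (by linarith)⟩⟩ h0 hB0
    have p3 := k.cross hZ A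
    have p4 : (0 : ℝ) ≤ y E * x A - y A * x E := by exact_mod_cast p2
    have := mul_pos hm p1
    nlinarith [mul_nonneg (mul_pos k.mu0 (neg_pos.2 k.lam1)).le p4]
  obtain ⟨e⟩ := tr_iso2 t hA0
  have hEV : σ.Vc ψ E := σ.isoVc e.symm hB
  exact ⟨ψ, h1, h2.le, (lam_lo h ⟨a, by linarith, hU⟩ hEV).2 hl, hEV⟩

end Crd

end Vale.Agent.P287T.Sw
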