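import Vale.Agent.P287T.Sw.Ht2

/-!
# Semistable objects of primitive charge are stable
-/

set_option linter.unusedSectionVars false

open CategoryTheory CategoryTheory.Pretriangulated CategoryTheory.Limits Module

namespace Vale.Agent.P287T.Sw

open Vale.Agent.P294 Vale.Agent.P287T.Op

universe v u

variable {C : Type u} [Category.{v} C] [Preadditive C] [HasZeroObject C]
  [HasShift C ℤ] [∀ n : ℤ, (shiftFunctor C n).Additive] [Pretriangulated C] [IsTriangulated C]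

/-- the central charge has integral coordinates `a`, `b` in the lattice with basis `w1`, `w2` -/
structure LatD (Z : C → ℂ) (w1 w2 : ℂ) (a b : C → ℤ) : Prop where
  ind : w1.re * w2.im - w1.im * w2.re ≠ 0
  eq : ∀ X, Z X = a X * w1 + b X * w2

variable {σ : Slic C} {Z : C → ℂ} {r : C → ℕ} {c φ : ℝ} {z0 z1 w1 w2 : ℂ} {x y a b : C → ℤ}

theorem LatD.lat (L : LatD Z w1 w2 a b) : Lat Z := ⟨w1, w2, L.ind, fun X => ⟨_, _, L.eq X⟩⟩

theorem lat_inj (h : w1.re * w2.im - w1.im * w2.re ≠ 0) {p q : ℤ}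
    (h0 : (p : ℂ) * w1 + q * w2 = 0) : p = 0 ∧ q = 0 := by
  have h1 := congrArg Complex.re h0
  have h2 := congrArg Complex.im h0
  simp only [Complex.add_re, Complex.add_im, Complex.mul_re, Complex.mul_im, Complex.intCast_re,
    Complex.intCast_im, Complex.zero_re, Complex.zero_im] at h1 h2
  have e1 : (p : ℝ) * (w1.re * w2.im - w1.im * w2.re) = 0 := by
    linear_combination w2.im * h1 - w2.re * h2
  have e2 : (q : ℝ) * (w1.re * w2.im - w1.im * w2.re) = 0 := by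
    linear_combination w1.re * h2 - w1.im * h1
  exact ⟨by exact_mod_cast (mul_eq_zero.1 e1).resolve_right h,
    by exact_mod_cast (mul_eq_zero.1 e2).resolve_right h⟩

theorem LatD.ext (L : LatD Z w1 w2 a b) {X Y : C} (h : Z X = Z Y) : a X = a Y ∧ b X = b Y := by
  have := lat_inj L.ind (p := a X - a Y) (q := b X - b Y) (by
    rw [L.eq, L.eq] at h
    push_cast
    linear_combination h)
  omega

theorem LatD.aadd (L : LatD Z w1 w2 a b) (h : AddTri Z) : AddTri a := fun T hT => by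
  have e := h T hT
  have := lat_inj L.ind (p := a T.obj₂ - a T.obj₁ - a T.obj₃) (q := b T.obj₂ - b T.obj₁ - b T.obj₃)
    (by simp only [L.eq] at e; push_cast; linear_combination e)
  omega

theorem LatD.badd (L : LatD Z w1 w2 a b) (h : AddTri Z) : AddTri b := fun T hT => by
  have e := h T hT
  have := lat_inj L.ind (p := a T.obj₂ - a T.obj₁ - a T.obj₃) (q := b T.obj₂ - b T.obj₁ - b T.obj₃)
    (by simp only [L.eq] at e; push_cast; linear_combination e)
  omega

theorem Crd.xy (k : Crd Z φ z0 z1 x y) {X : C} (h : Z X = z0) : x X = -1 ∧ y X = 0 := by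
  have h1 := k.lam_y X
  rw [h, k.lam0] at h1
  have h2 : (y X : ℝ) = 0 := (mul_eq_zero.1 h1.symm).resolve_right k.lam1.ne
  have h3 := k.mu_s φ X
  rw [h, h2] at h3
  have h4 : (x X : ℝ) = -1 := mul_right_cancel₀ k.mu0.ne' (by linarith)
  exact ⟨by exact_mod_cast h4, by exact_mod_cast h2⟩

theorem LatD.ne (L : LatD Z w1 w2 a b) (h : AddTri Z) {E : C} (hc : IsCoprime (a E) (b E)) :
    ¬ IsZero E := fun h0 => by
  rw [(L.aadd h).zeroG h0, (L.badd h).zeroG h0] at hc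
  exact not_isCoprime_zero_zero hc

/-- coordinates adapted to a semistable object of primitive charge -/
theorem LatD.crd (L : LatD Z w1 w2 a b) (h : Stab σ Z r c) {E : C} (hE : σ.P φ E) {u v : ℤ}
    (huv : u * a E + v * b E = 1) :
    ∃ e : ℤ, (e = 1 ∨ e = -1) ∧ Crd Z φ (Z E) (e * (-v * w1 + u * w2))
      (fun X => -(a X * u + b X * v)) (fun X => e * (a E * b X - b E * a X)) := by
  obtain ⟨m, hm, hZ⟩ := h.ph φ E hE
  have h1 := r_pos h (L.ne h.add ⟨u, v, huv⟩)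
  have := Crd.of L.eq L.ind huv (m := m) (φ := φ) (by nlinarith [h.cpos]) (by rw [← L.eq, hZ])
  rwa [← L.eq] at this

theorem Crd.sim (k : Crd Z φ z0 z1 x y) (h : Stab σ Z r c) {E : C} (hE : σ.P φ E)
    (hZ : Z E = z0) : Sim (Uo σ (φ - 1)) (σ.Vc (φ - 1)) E :=
  (k.hrt h).sim_of_one ((k.p1_iff h).2 hE) (k.xy hZ).1

/-- semistable of primitive charge means stable -/
theorem LatD.sim (L : LatD Z w1 w2 a b) (h : Stab σ Z r c) {E : C} (hE : σ.P φ E)
    (hc : IsCoprime (a E) (b E)) : Sim (Uo σ (φ - 1)) (σ.Vc (φ - 1)) E := by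
  obtain ⟨u, v, huv⟩ := hc
  obtain ⟨e, -, k⟩ := L.crd h hE huv
  exact k.sim h hE rfl

theorem LatD.schur (L : LatD Z w1 w2 a b) (h : Stab σ Z r c) {E F : C} (hE : σ.P φ E)
    (hF : σ.P φ F) (hc : IsCoprime (a E) (b E)) (hc' : IsCoprime (a F) (b F)) {f : E ⟶ F}
    (hf : f ≠ 0) : IsIso f :=
  (L.sim h hE hc).schur (ts_o h _) (L.sim h hF hc') hf

/-- the phase is determined modulo `2` by the charge -/
theorem phase_eq (h : Stab σ Z r c) {E F : C} {ψ : ℝ} (hE : σ.P φ E) (hF : σ.P ψ F)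
    (h0 : ¬ IsZero E) (hZ : Z E = Z F) : ∃ k : ℤ, ψ = φ + 2 * k := by
  obtain ⟨m, hm, h1⟩ := h.ph φ E hE
  obtain ⟨m', hm', h2⟩ := h.ph ψ F hF
  have p : 0 < m := by nlinarith [h.cpos, r_pos h h0]
  have p' : 0 ≤ m' := le_trans (mul_nonneg h.cpos.le (Nat.cast_nonneg _)) hm'
  have e1 : lam φ (Z E) = 0 := lam_P h hE
  have e2 : mu φ (Z E) = m := by rw [h1, mu_mul_ray]; simp
  rw [hZ, h2, lam_mul_ray] at e1
  rw [hZ, h2, mu_mul_ray] at e2
  have q : m' ≠ 0 := fun e => by rw [e] at e2; linarith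
  have s0 := (mul_eq_zero.1 e1).resolve_left q
  have c0 : 0 < Real.cos (Real.pi * (ψ - φ)) := by
    by_contra hc
    nlinarith [mul_nonneg p' (neg_nonneg.2 (not_lt.1 hc))]
  have c1 : Real.cos (Real.pi * (ψ - φ)) = 1 := by
    nlinarith [Real.sin_sq_add_cos_sq (Real.pi * (ψ - φ))]
  obtain ⟨n, hn⟩ := (Real.cos_eq_one_iff _).1 c1
  refine ⟨n, ?_⟩
  have : Real.pi * (2 * n) = Real.pi * (ψ - φ) := by linarith
  linarith [mul_left_cancel₀ Real.pi_ne_zero this]

variable [Linear ℂ C]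

theorem CY2.hd_P (K : CY2 C) (h : Stab σ Z r c) {E F : C} (hE : σ.P φ E) (hF : σ.P φ F) (k : ℤ)
    (hk : k < 0 ∨ 2 < k) : hd E F k = 0 :=
  K.heart (ts_o h (φ - 1)) (ht_of_P (by linarith) le_rfl hE) (ht_of_P (by linarith) le_rfl hF) k hk

/-- the dimensions `(1, 2 - χ, 1)` of a stable object -/
theorem LatD.dims (L : LatD Z w1 w2 a b) (K : CY2 C) (h : Stab σ Z r c) {E : C} (hE : σ.P φ E)
    (hc : IsCoprime (a E) (b E)) :
    finrank ℂ (E ⟶ E) = 1 ∧ hd E E 0 = 1 ∧ (hd E E 1 : ℤ) = 2 - chi E E ∧ hd E E 2 = 1 ∧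
      ∀ k : ℤ, k < 0 ∨ 2 < k → hd E E k = 0 := by
  have s := L.sim h hE hc
  have h1 := K.end_sim (ts_o h _) s
  have h2 := K.chi_brick (ts_o h _) s.ht s.ne fun f hf => s.schur (ts_o h _) s hf
  exact ⟨h1, (hd_zero E E).trans h1, by omega, (K.serre0 E E).trans h1, K.hd_P h hE hE⟩

/-- non isomorphic stable objects of the same phase with `χ = 0` are completely orthogonal -/
theorem LatD.orth (L : LatD Z w1 w2 a b) (K : CY2 C) (h : Stab σ Z r c) {E F : C} (hE : σ.P φ E)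
    (hF : σ.P φ F) (hc : IsCoprime (a E) (b E)) (hc' : IsCoprime (a F) (b F))
    (hne : IsEmpty (E ≅ F)) :
    (∀ k : ℤ, k ≠ 1 → hd E F k = 0) ∧ (hd E F 1 : ℤ) = - chi E F := by
  have h1 : finrank ℂ (E ⟶ F) = 0 := fr_of_zero fun f => by
    by_contra hf
    have := L.schur h hE hF hc hc' hf
    exact hne.false (asIso f)
  have h2 : finrank ℂ (F ⟶ E) = 0 := fr_of_zero fun f => by
    by_contra hf
    have := L.schur h hF hE hc' hc hf
    exact hne.false (asIso f).symm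
  have key : ∀ k : ℤ, k ≠ 1 → hd E F k = 0 := fun k hk => by
    by_cases e0 : k = 0
    · rw [e0, hd_zero, h1]
    by_cases e2 : k = 2
    · rw [e2, K.serre0, h2]
    exact K.hd_P h hE hF k (by omega)
  refine ⟨key, ?_⟩
  rw [chi_single 1 key]
  simp [hd]

end Vale.Agent.P287T.Sw
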