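import Vale.Agent.P287T.Sw.Ht3
import Vale.Agent.P287T.Sw.Lb
import Vale.Agent.P287T.Sw.S4
import Vale.Agent.P287T.Sw.NoWall

/-!
# The switch, abstract form
-/

set_option linter.unusedSectionVars false

open CategoryTheory CategoryTheory.Pretriangulated CategoryTheory.Limits Module

namespace Vale.Agent.P287T.Sw

open Vale.Agent.P294 Vale.Agent.P287T.Op

universe v u

variable {C : Type u} [Category.{v} C] [Preadditive C] [Linear ℂ C] [HasZeroObject C] [HasShift C ℤ]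
  [∀ n : ℤ, (shiftFunctor C n).Additive] [Pretriangulated C] [IsTriangulated C]
  [∀ n : ℤ, (shiftFunctor C n).Linear ℂ]

/-- orthogonal coordinates of the charge with respect to a given lattice vector -/
theorem crd_orth {Z : C → ℂ} {κ ζ : ℂ} {a b : C → ℤ} (hre : ζ.re = 1 / 2) (him : ζ.im = √3 / 2)
    (hZ : ∀ X, Z X = a X * κ + b X * (κ * ζ)) {p1 p2 : ℤ} (hP : 0 < ip3 p1 p2 p1 p2) {m φ : ℝ}
    (hm : 0 < m) (h0 : (p1 : ℂ) * κ + p2 * (κ * ζ) = m * ray φ) :
    ∃ z0 z1, Crd Z φ z0 z1 (fun X => -ip3 p1 p2 (a X) (b X))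
      (fun X => -(p1 * b X - p2 * a X)) := by
  have hPR : (0 : ℝ) < (ip3 p1 p2 p1 p2 : ℝ) := by exact_mod_cast hP
  have hPC : ((ip3 p1 p2 p1 p2 : ℤ) : ℂ) ≠ 0 := by exact_mod_cast hP.ne'
  have h3 : (√3 : ℝ) * √3 = 3 := Real.mul_self_sqrt (by norm_num)
  have hs : (0 : ℝ) < √3 := by positivity
  have hz : ζ * ζ = ζ - 1 := by
    apply Complex.ext
    · simp only [Complex.mul_re, Complex.sub_re, Complex.one_re, hre, him]; nlinarith
    · simp only [Complex.mul_im, Complex.sub_im, Complex.one_im, hre, him]; ring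
  have hi : 2 * ζ - 1 = (√3 : ℝ) * Complex.I := by
    apply Complex.ext
    · simp [hre]
    · simp [him]; ring
  refine ⟨((m / ip3 p1 p2 p1 p2 : ℝ) : ℂ) * ray φ,
    -((2 * ζ - 1) * (((m / ip3 p1 p2 p1 p2 : ℝ) : ℂ) * ray φ)), ⟨_, div_pos hm hPR, rfl⟩, ?_,
    fun X => ?_⟩
  · rw [P294.lam_neg, ← lam_sub1, hi, lam]
    have e : ray (-φ) * ((√3 : ℝ) * Complex.I * (((m / ip3 p1 p2 p1 p2 : ℝ) : ℂ) * ray φ))
        = ((√3 * (m / ip3 p1 p2 p1 p2) : ℝ) : ℂ) * Complex.I := by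
      have : ray (-φ) * ray φ = 1 := by rw [← ray_add, neg_add_cancel, ray_zero]
      push_cast
      linear_combination ((√3 : ℝ) * Complex.I * ((m : ℂ) / (ip3 p1 p2 p1 p2 : ℤ))) * this
    rw [e]
    simp only [Complex.mul_im, Complex.ofReal_re, Complex.I_im, Complex.ofReal_im, Complex.I_re]
    have := div_pos hm hPR
    nlinarith
  · have e : ((m / ip3 p1 p2 p1 p2 : ℝ) : ℂ) * ray φ
        = (p1 * κ + p2 * (κ * ζ)) / (ip3 p1 p2 p1 p2 : ℤ) := by
      rw [h0]; push_cast; ring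
    rw [e, hZ]
    field_simp
    unfold ip3
    push_cast
    linear_combination (2 * κ * p2 * (p2 * (a X : ℂ) - p1 * b X)) * hz

/-- **The switch.** -/
theorem switch {σ : Slic C} {Z : C → ℂ} {rk : C → ℕ} {c φ : ℝ} (h : Stab σ Z rk c) (K : CY2 C)
    {κ ζ : ℂ} {a b : C → ℤ} (hre : ζ.re = 1 / 2) (him : ζ.im = √3 / 2)
    (L : LatD Z κ (κ * ζ) a b) {S : Type*} {O : S → C} (p : S) {G : C} {p1 p2 q1 q2 : ℤ}
    (hO : ∀ q, σ.P φ (O q)) (ha : ∀ q, a (O q) = p1) (hb : ∀ q, b (O q) = p2)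
    (hc : IsCoprime p1 p2) (hq : ∀ q X, chi X (O q) = chi X (O p)) (hoo : chi (O p) (O p) = 0)
    (span : ∀ X, (∀ q (k : ℤ), Orth X ((O q)⟦k⟧)) → IsZero X)
    (van : ∀ q (k : ℤ), k ≠ 0 → Orth G ((O q)⟦k⟧)) (hGo : chi G (O p) = 1) (hGG : chi G G = 2)
    (hGa : a G = p1 + q1) (hGb : b G = p2 + q2) (ori : p1 * q2 - p2 * q1 < 0)
    (hF : Far p1 p2 q1 q2 ∨ Far q1 q2 p1 p2)
    (hco : ∀ X, ∃ r1 r2 j z : ℤ, a X = 2 * r1 - r2 + j * p1 + z * q1 ∧
      b X = -r1 + 2 * r2 + j * p2 + z * q2 ∧ chi X (O p) = -(r1 * p1 + r2 * p2 - z) ∧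
      chi X (O p) - chi X G = r1 * q1 + r2 * q2 - j ∧
      chi X X = -2 * (r1 ^ 2 - r1 * r2 + r2 ^ 2 + j * (r1 * p1 + r2 * p2)
        + z * (r1 * q1 + r2 * q2 - j))) :
    ∃ E ψ, σ.P ψ E ∧ A2bTr E G (O p) := by
  have hcp : ∀ q, IsCoprime (a (O q)) (b (O q)) := fun q => by rw [ha, hb]; exact hc
  obtain ⟨m, hm, hZ⟩ := h.ph φ (O p) (hO p)
  have hm0 : 0 < m := by
    have := r_pos h (L.ne h.add (hcp p))
    nlinarith [h.cpos]
  obtain ⟨z0, z1, k⟩ := crd_orth hre him L.eq (ip3_pos ori.ne) hm0 (φ := φ)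
    (by rw [← hZ, L.eq, ha, hb])
  have H := k.hrt h
  have hoq : ∀ q, chi (O q) (O p) = 0 := fun q => by
    rw [K.chi_symm, hq, hoo]
  have F : Fam (Uo σ (φ - 1)) (σ.Vc (φ - 1)) (fun X => -(p1 * b X - p2 * a X))
      (fun X => chi X (O p)) O :=
    { sim := fun q => L.sim h (hO q) (hcp q)
      y0 := fun q => by simp only [ha, hb]; ring
      add := K.addL _
      r0 := hoq
      fin := K.finite
      ser := fun q X o => K.fr_zero.1 ((K.serre0 X (O q)).trans (fr_of_zero o))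
      chi := fun q X o => by
        rw [← hq q, chi_window fun k hk => fr_of_zero (o k hk), hd_zero]
      span := span }
  have hL : Lb O G := ⟨van, fun q => by
    have e := chi_single (X := G) (Y := O q) 0 fun k hk => fr_of_zero (van q k hk)
    rw [hq, hGo, hd_zero] at e
    simp only [Int.negOnePow_zero, Units.val_one, one_mul] at e
    exact_mod_cast e.symm⟩
  have yG : 0 < -(p1 * b G - p2 * a G) := by rw [hGa, hGb]; nlinarith
  obtain ⟨E, s, tf, rE, hsub⟩ := F.ideal H hL p yG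
  have aE : a E = q1 := by
    have := addZ (L.aadd h.add) s.tr
    rw [ha, hGa] at this; omega
  have bE : b E = q2 := by
    have := addZ (L.badd h.add) s.tr
    rw [hb, hGb] at this; omega
  have hE0 : ¬ IsZero E := fun h0 => by
    have := H.y_zero h0
    simp only [aE, bE] at this
    omega
  have tadd : AddTri fun X : C => chi X (O p) - chi X G := fun T hT => by
    have e1 := K.addL (O p) T hT
    have e2 := K.addL G T hT
    simp only at e1 e2 ⊢
    rw [e1, e2]; ring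
  have tE : chi E (O p) - chi E G ≤ 0 := by
    have e2 := addZ (K.addL G) s.tr
    rw [hGG, K.chi_symm (O p) G, hGo] at e2
    omega
  have main := H.s4 F.add tadd (fun T hT => F.r_nonpos H p hT) s.h1 tf hE0 rE hsub tE (by
    intro B hB br tB t la ht h0 h1 hy hx
    obtain ⟨r1, r2, j, z, e1, e2, e3, e4, e5⟩ := hco B
    simp only [aE, bE] at hy hx
    have hB0 : ¬ IsZero B := fun hz => by
      have e := H.y_zero hz
      rw [e] at hy
      have : (0 : ℝ) < ((-(p1 * q2 - p2 * q1) : ℤ) : ℝ) := by exact_mod_cast (by omega)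
      have := mul_pos h0 this
      push_cast at hy this
      linarith
    have hle := K.chi_brick_le H.ts hB hB0 br
    refine nowall_coord hF ori.ne e1 e2 ht h0 h1 ?_ ?_ (by omega) (by omega)
    · push_cast at hy ⊢
      linarith
    · rw [e3, rE] at hx
      push_cast at hx ⊢
      linarith)
  obtain ⟨ψ, -, -, hψ⟩ := k.ss_of_sub h s.h1 fun A Q s' h1 h2 => (main A Q s' h1 h2).le
  exact ⟨E, ψ, hψ, s.tr⟩

end Vale.Agent.P287T.Sw
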