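import Vale.Agent.P287T.Sw.Wall0

/-! Jordan-Hölder factors of semirigid objects and universal extensions. -/

set_option linter.unusedSectionVars false
set_option backward.defeqAttrib.useBackward true
set_option backward.isDefEq.respectTransparency false

namespace Vale.Agent.P287T.Sw

open CategoryTheory Limits Pretriangulated Module

universe v u

variable {C : Type u} [Category.{v} C] [Preadditive C] [Linear ℂ C] [HasZeroObject C] [HasShift C ℤ]
  [∀ n : ℤ, (shiftFunctor C n).Additive] [Pretriangulated C] {N : Type*} [AddCommGroup N]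

/-- a finite length abelian subcategory `P` of a category of Calabi-Yau dimension two: `v` is the
class, `b` minus the Euler form, `m` the mass -/
structure K3 (P : C → Prop) (v : C → N) (b : N →+ N →+ ℝ) (m : N →+ ℝ) (c : ℝ) : Prop where
  ab : Ab P
  add : ∀ {X Y Z : C}, Tr X Y Z → P X → P Z → v Y = v X + v Z
  pos : 0 < c
  mass : ∀ {X : C}, P X → ¬IsZero X → c ≤ m (v X)
  fin : ∀ X Y : C, Module.Finite ℂ (X ⟶ Y)
  ser : ∀ {X Y : C}, P X → P Y → Orth X Y → Orth Y (X⟦(1 : ℤ)⟧⟦(1 : ℤ)⟧)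
  chi : ∀ {X Y : C}, P X → P Y → (h1 X Y : ℝ) = h0 X Y + h0 Y X + b (v X) (v Y)
  even : ∀ {X : C}, P X → Even (h1 X X)

/-- `θ` is negative on all proper subobjects -/
def Stb (P : C → Prop) (θ : C → ℝ) (E : C) : Prop :=
  ∀ A B, P A → P B → Tr A E B → ¬IsZero A → ¬IsZero B → θ A < 0

theorem Smp.h0_shift {P : C → Prop} {S : C} (s : Smp P S) (h : Ab P)
    [Module.Finite ℂ (S⟦(1 : ℤ)⟧ ⟶ S⟦(1 : ℤ)⟧)] : h0 (S⟦(1 : ℤ)⟧) (S⟦(1 : ℤ)⟧) = 1 :=
  finrank_endomorphism_eq_one ℂ fun f => by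
    obtain ⟨g, rfl⟩ := (shiftFunctor C (1 : ℤ)).map_surjective f
    constructor
    · intro _ e
      have := isIso_of_reflects_iso g (shiftFunctor C (1 : ℤ))
      have z : g = 0 :=
        (shiftFunctor C (1 : ℤ)).map_injective (e.trans (Functor.map_zero _ _ _).symm)
      exact s.2.1 ((IsZero.iff_id_eq_zero _).2
        ((IsIso.hom_inv_id g).symm.trans ((congrArg (· ≫ inv g) z).trans zero_comp)))
    · intro e
      have := s.isIso h s (f := g) fun z => e (by rw [z, Functor.map_zero])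
      infer_instance

namespace K3

variable {P : C → Prop} {v : C → N} {b : N →+ N →+ ℝ} {m : N →+ ℝ} {c : ℝ} (k : K3 P v b m c)
  {X Y S F E : C}
include k

open ZeroObject in
theorem v_zero₀ : v (0 : C) = 0 := by
  have z := k.ab.zero (isZero_zero C)
  simpa using k.add (tr_iso_zero (Iso.refl (0 : C))) z z

theorem v_iso (e : X ≅ Y) (a : P X) : v Y = v X := by
  rw [k.add (tr_iso_zero e) a (k.ab.zero (isZero_zero C)), k.v_zero₀, add_zero]

theorem v_zero (z : IsZero X) : v X = 0 :=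
  (k.v_iso z.isoZero.symm (k.ab.zero (isZero_zero C))).trans k.v_zero₀

theorem m_nonneg (a : P X) : 0 ≤ m (v X) := by
  by_cases z : IsZero X
  · rw [k.v_zero z, map_zero]
  · exact k.pos.le.trans (k.mass a z)

theorem ind (Q : C → Prop) (h : ∀ X, P X → (∀ Y, P Y → m (v Y) + c ≤ m (v X) → Q Y) → Q X) :
    ∀ X, P X → Q X := by
  have H : ∀ n : ℕ, ∀ X, P X → m (v X) < n * c → Q X := by
    intro n
    induction n with
    | zero => exact fun X a l => absurd (k.m_nonneg a) (by simpa using l)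
    | succ n ih => exact fun X a l => h X a fun Y a' l' => ih Y a' (by push_cast at l; linarith)
  intro X a
  obtain ⟨n, hn⟩ := exists_nat_gt (m (v X) / c)
  exact H n X a ((div_lt_iff₀ k.pos).1 hn)

theorem v_Sx (s : P S) {n : ℕ} (x : Sx S n X) : v X = n • v S := by
  induction x with
  | zero _ z => rw [k.v_zero z, zero_smul]
  | one _ e => rw [k.v_iso e s, one_smul]
  | ext _ _ _ _ _ t x z ih ih' => rw [k.add t (x.mem k.ab s) (z.mem k.ab s), ih, ih', add_smul]

variable [IsTriangulated C]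

theorem exists_smp : ∀ X, P X → ¬IsZero X → ∃ S B, Smp P S ∧ P B ∧ Tr S X B := by
  refine k.ind _ fun X a ih z => ?_
  by_cases s : Smp P X
  · exact ⟨X, _, s, k.ab.zero (isZero_zero C), tr_iso_zero (Iso.refl X)⟩
  · have : ∃ A B, P A ∧ P B ∧ Tr A X B ∧ ¬IsZero A ∧ ¬IsZero B := by
      by_contra n
      exact s ⟨a, z, fun A B p q t => by
        by_contra r
        exact n ⟨A, B, p, q, t, fun w => r (.inl w), fun w => r (.inr w)⟩⟩
    obtain ⟨A, B, p, q, t, zA, zB⟩ := this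
    obtain ⟨S, B', s, p', t'⟩ :=
      ih A p (by rw [k.add t p q, map_add]; linarith [k.mass q zB]) zA
    obtain ⟨R, r, r'⟩ := t.oct₁ t'
    exact ⟨S, R, s, k.ab.ext r' p' q, r⟩

theorem exists_max (s : Smp P S) :
    ∀ X, P X → ∃ a A B, Sx S a A ∧ P B ∧ Tr A X B ∧ Orth S B := by
  refine k.ind _ fun X a ih => ?_
  by_cases o : Orth S X
  · exact ⟨0, _, X, .zero _ (isZero_zero C), a, tr_zero_iso (Iso.refl X), o⟩
  · obtain ⟨f, hf⟩ := not_forall.1 o
    obtain ⟨Q, g, δ, q, t⟩ := s.sub k.ab a hf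
    obtain ⟨n, A, B, x, p, t', o'⟩ :=
      ih Q q (by rw [k.add t.tr s.1 q, map_add]; linarith [k.mass s.1 s.2.1])
    obtain ⟨G, r, r'⟩ := t.tr.oct₂ t'
    exact ⟨1 + n, G, B, .ext _ _ _ _ _ r' (.one _ (Iso.refl S)) x, p, r, o'⟩

theorem brick (s : Smp P S) {n : ℕ} (x : Sx S n X) (e : h0 X X = 1) : n = 1 := by
  have a := x.mem k.ab s.1
  have z : ¬Orth X X := fun o => by simp [o.h0] at e
  obtain ⟨α, hα⟩ := not_forall.1 fun o => z (x.orth_right o)
  obtain ⟨β, hβ⟩ := not_forall.1 fun o => z (x.orth_left o)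
  obtain ⟨K, f, δ, p, t⟩ := s.quot k.ab a hα
  obtain ⟨r, hr⟩ := (finrank_eq_one_iff_of_nonzero' (𝟙 X)
    fun w => z fun φ => by rw [← Category.comp_id φ, w, comp_zero]).1 e (α ≫ β)
  have r0 : r ≠ 0 := fun w => hβ (k.ab.epi t p a (by rw [← hr, w, zero_smul]))
  have f0 : f = 0 := by
    have : r • f = 0 := by
      rw [← Category.comp_id f, ← Linear.comp_smul, hr, ← Category.assoc, t.fg, zero_comp]
    exact (smul_eq_zero.1 this).resolve_left r0
  have zK : IsZero K :=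
    (IsZero.iff_id_eq_zero _).2 (k.ab.mono t s.1 p (by rw [f0, comp_zero]))
  have w := congrArg m ((k.v_Sx s.1 x).symm.trans (k.add t.tr p s.1))
  rw [k.v_zero zK, zero_add, map_nsmul, nsmul_eq_mul] at w
  have := k.pos.trans_le (k.mass s.1 s.2.1)
  exact_mod_cast mul_right_cancel₀ this.ne' (w.trans (one_mul _).symm)

theorem h1_Sx (s : Smp P S) {n : ℕ} (x : Sx S n X) (l : h1 X X ≤ 2) : n * h1 S S ≤ h1 X X := by
  have := k.fin S S
  have := k.fin X X
  have a := x.mem k.ab s.1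
  have e := k.chi a a
  have e' := k.chi s.1 s.1
  rw [k.v_Sx s.1 x, map_nsmul, map_nsmul, AddMonoidHom.nsmul_apply, nsmul_eq_mul, nsmul_eq_mul] at e
  rw [s.h0_eq k.ab] at e'
  obtain ⟨j, hj⟩ := k.even s.1
  have w : (h1 X X : ℤ) = 2 * h0 X X + n * n * (2 * j - 2) := by
    have : (h1 X X : ℝ) = 2 * h0 X X + n * n * (2 * j - 2) := by
      rw [hj] at e'
      push_cast at e'
      rw [e, show b (v S) (v S) = 2 * j - 2 by linarith]
      ring
    exact_mod_cast this
  rcases Nat.eq_zero_or_pos j with rfl | j0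
  · simp [hj]
  rcases Nat.eq_zero_or_pos n with rfl | n0
  · simp
  have p : (0 : ℤ) ≤ n * n * (2 * j - 2) := by
    have : (0 : ℤ) ≤ 2 * j - 2 := by omega
    positivity
  have h : h0 X X ≠ 0 := fun z => by
    have o : IsZero X := Orth.isZero fun f => finrank_zero_iff_forall_zero.1 z f
    have w := congrArg m (k.v_Sx s.1 x)
    rw [k.v_zero o, map_zero, map_nsmul, nsmul_eq_mul] at w
    have := mul_pos (Nat.cast_pos.2 n0 : (0 : ℝ) < n) (k.pos.trans_le (k.mass s.1 s.2.1))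
    linarith
  obtain rfl := k.brick s x (by omega)
  omega

/-- Jordan-Hölder factors of an object with `ext¹ ≤ 2` -/
theorem jh : ∀ X, P X → h1 X X ≤ 2 → ∃ L : List C, (∀ S ∈ L, Smp P S) ∧ (L.map v).sum = v X ∧
    (L.map fun S => h1 S S).sum ≤ h1 X X := by
  refine k.ind _ fun X a ih l => ?_
  by_cases z : IsZero X
  · exact ⟨[], by simp, by simp [k.v_zero z], by simp⟩
  obtain ⟨S, R, s, r, t⟩ := k.exists_smp X a z
  obtain ⟨n, A, B, x, p, t', o⟩ := k.exists_max s R r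
  obtain ⟨G, g, g'⟩ := t.oct₂ t'
  have y : Sx S (1 + n) G := .ext _ _ _ _ _ g' (.one _ (Iso.refl S)) x
  have hG := y.mem k.ab s.1
  have M := mukai k.fin g (y.orth_left o) (k.ser hG p (y.orth_left o))
  obtain ⟨L, u, w, w'⟩ := ih B p (by
    rw [k.add t s.1 r, k.add t' (x.mem k.ab s.1) p, map_add, map_add]
    linarith [k.mass s.1 s.2.1, k.m_nonneg (x.mem k.ab s.1)]) (by omega)
  have := k.h1_Sx s y (by omega)
  refine ⟨List.replicate (1 + n) S ++ L, fun T hT => ?_, ?_, ?_⟩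
  · rcases List.mem_append.1 hT with i | i
    · exact List.eq_of_mem_replicate i ▸ s
    · exact u T i
  · rw [List.map_append, List.sum_append, List.map_replicate, List.sum_replicate, w, k.add g hG p,
      k.v_Sx s.1 y]
  · rw [List.map_append, List.sum_append, List.map_replicate, List.sum_replicate, smul_eq_mul]
    omega

variable (θ : N →+ ℝ)

theorem h0_stb (a : P E) (z : ¬IsZero E) (e : θ (v E) = 0) (s : Stb P (fun X => θ (v X)) E) :
    h0 E E = 1 := by
  have := k.fin E E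
  refine finrank_endomorphism_eq_one ℂ fun f => ⟨fun _ e => z ((IsZero.iff_id_eq_zero _).2
    ((IsIso.hom_inv_id f).symm.trans ((congrArg (· ≫ inv f) e).trans zero_comp))), fun hf => ?_⟩
  obtain ⟨K, I, Q, i, p, j, q, d, d', t, t', hK, hI, hQ, rfl⟩ := k.ab.fac a a f
  have zI : ¬IsZero I := fun w => hf (by rw [w.eq_of_src j 0, comp_zero])
  have u := congrArg θ (k.add t.tr hK hI)
  have u' := congrArg θ (k.add t'.tr hI hQ)
  rw [map_add, e] at u u'
  have zQ : IsZero Q := by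
    by_contra w
    have := s _ _ hI hQ t'.tr zI w
    by_cases w' : IsZero K
    · rw [k.v_zero w', map_zero] at u
      linarith
    · linarith [s _ _ hK hI t.tr w' zI]
  have zK : IsZero K := by
    by_contra w
    rw [k.v_zero zQ, map_zero] at u'
    linarith [s _ _ hK hI t.tr w zI]
  have := t.isIso₂ zK
  have := t'.isIso₁ zQ
  infer_instance

theorem univ_sub (s : Smp P S) (o : Orth F S) (j : ℕ) (l : j ≤ h1 F S) :
    ∃ E A, Tr A E F ∧ Sx S j A ∧ Orth E S ∧ h1 F S ≤ h1 E S + j := by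
  have := k.fin
  induction j with
  | zero => exact ⟨F, _, tr_zero_iso (Iso.refl F), .zero _ (isZero_zero C), o, le_rfl⟩
  | succ j ih =>
    obtain ⟨E, A, t, x, o', l'⟩ := ih (by omega)
    obtain ⟨δ, hδ⟩ := finrank_pos_iff_exists_ne_zero.1 (show 0 < h1 E S by omega)
    obtain ⟨E', i, g, t'⟩ := distinguished_cocone_triangle₂ δ
    replace t' : Dt i g δ := t'
    obtain ⟨G, r, r'⟩ := t'.tr.oct₂ t
    refine ⟨E', G, r, add_comm 1 j ▸ .ext _ _ _ _ _ r' (.one _ (Iso.refl S)) x, fun φ => ?_, ?_⟩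
    · by_cases e : i ≫ φ = 0
      · obtain ⟨ψ, rfl⟩ := t'.yon₂ φ e
        rw [o' ψ, comp_zero]
      · have := s.isIso k.ab s e
        have w : δ ≫ i⟦(1 : ℤ)⟧' = 0 := comp_distTriang_mor_zero₃₁ _ t'
        refine absurd ((cancel_mono ((i ≫ φ)⟦(1 : ℤ)⟧')).1 ?_) hδ
        rw [Functor.map_comp, ← Category.assoc, w, zero_comp, zero_comp]
    · have := Wall0_le (Linear.leftComp ℂ (S⟦(1 : ℤ)⟧) δ) (Linear.leftComp ℂ (S⟦(1 : ℤ)⟧) g)
        fun x hx => t'.yon₃ x hx
      have := s.h0_shift k.ab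
      unfold h0 h1 at *
      omega

theorem univ_quot (s : Smp P S) (o : Orth S F) (j : ℕ) (l : j ≤ h1 S F) :
    ∃ E A, Tr F E A ∧ Sx S j A ∧ Orth S E ∧ h1 S F ≤ h1 S E + j := by
  have := k.fin
  induction j with
  | zero => exact ⟨F, _, tr_iso_zero (Iso.refl F), .zero _ (isZero_zero C), o, le_rfl⟩
  | succ j ih =>
    obtain ⟨E, A, t, x, o', l'⟩ := ih (by omega)
    obtain ⟨δ, hδ⟩ := finrank_pos_iff_exists_ne_zero.1 (show 0 < h1 S E by omega)
    obtain ⟨E', i, g, t'⟩ := distinguished_cocone_triangle₂ δ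
    replace t' : Dt i g δ := t'
    obtain ⟨G, r, r'⟩ := t'.tr.oct₁ t
    refine ⟨E', G, r, .ext _ _ _ _ _ r' x (.one _ (Iso.refl S)), fun φ => ?_, ?_⟩
    · by_cases e : φ ≫ g = 0
      · obtain ⟨ψ, rfl⟩ := t'.coy₂ φ e
        rw [o' ψ, zero_comp]
      · have := s.isIso k.ab s e
        refine absurd ((cancel_epi (φ ≫ g)).1 ?_) hδ
        rw [Category.assoc, t'.gd, comp_zero, comp_zero]
    · have := Wall0_le (Linear.rightComp ℂ S δ) (Linear.rightComp ℂ S (i⟦(1 : ℤ)⟧'))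
        fun x hx => t'.coy₁ x hx
      have := s.h0_eq k.ab
      unfold h0 h1 at *
      omega

/-- the universal extension with `S ^ q` as subobject -/
theorem ext_sub (s : Smp P S) (f : Smp P F) (o : Orth F S) {q : ℕ} (l : q ≤ h1 F S)
    (n : θ (v S) < 0) (e : θ (v F) + q * θ (v S) = 0) :
    ∃ E, P E ∧ v E = v F + q • v S ∧ Stb P (fun X => θ (v X)) E := by
  obtain ⟨E, A, ⟨α, β, γ, t⟩, x, o', -⟩ := k.univ_sub s o q l
  have a := x.mem k.ab s.1
  have w : v E = v F + q • v S := by rw [k.add t.tr a f.1, k.v_Sx s.1 x, add_comm]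
  refine ⟨E, k.ab.ext t.tr a f.1, w, ?_⟩
  rintro A' B hA hB ⟨i, π, ε, t'⟩ zA zB
  obtain ⟨K, I, K', Q, -, -, hK, hI, hK', hQ, r, r', r'', -⟩ := k.ab.qt_ext t a f.1 t' hA hB
  obtain ⟨j, hj, y⟩ := x.quot k.ab s hK hI r
  rcases f.2.2 _ _ hK' hQ r' with z | z
  · have u := k.add t'.tr hA hB
    rw [w, k.add r'' hI hQ, k.v_Sx s.1 y, k.v_iso (r'.nonempty₂ z).some f.1] at u
    have u₁ := congrArg θ u
    have u₂ := congrArg m u
    simp only [map_add, map_nsmul, nsmul_eq_mul] at u₁ u₂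
    have : j ≠ q := by
      rintro rfl
      linarith [k.mass hA zA, k.pos]
    have : (j : ℝ) < q := by exact_mod_cast lt_of_le_of_ne hj this
    show θ (v A') < 0
    nlinarith
  · refine absurd (Orth.isZero ((y.iso (r''.nonempty₁ z).some).orth_right fun φ => ?_)) zB
    exact k.ab.epi t' hA s.1 (o' _)

/-- the universal extension with `S ^ q` as quotient -/
theorem ext_quot (s : Smp P S) (f : Smp P F) (o : Orth S F) {q : ℕ} (l : q ≤ h1 S F)
    (n : 0 < θ (v S)) (e : θ (v F) + q * θ (v S) = 0) :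
    ∃ E, P E ∧ v E = v F + q • v S ∧ Stb P (fun X => θ (v X)) E := by
  obtain ⟨E, A, ⟨α, β, γ, t⟩, x, o', -⟩ := k.univ_quot s o q l
  have a := x.mem k.ab s.1
  have w : v E = v F + q • v S := by rw [k.add t.tr f.1 a, k.v_Sx s.1 x]
  refine ⟨E, k.ab.ext t.tr f.1 a, w, ?_⟩
  rintro A' B hA hB ⟨i, π, ε, t'⟩ zA zB
  obtain ⟨K, I, K', Q, p, j', hK, hI, hK', hQ, r, r', r'', e₁, e₂, e₃⟩ :=
    k.ab.qt_ext t f.1 a t' hA hB
  obtain ⟨j, hj, y⟩ := x.quot k.ab s hK' hQ r'
  have z : IsZero I := by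
    obtain ⟨T, R, hT, hR, τ, ρ, κ, t''⟩ := k.exists_smp A' hA zA
    have nz : τ ≫ i ≠ 0 := fun u => hT.2.1 ((IsZero.iff_id_eq_zero _).2
      (k.ab.mono t'' hR hT.1 (by rw [Category.id_comp]; exact k.ab.mono t' hB hT.1 u)))
    by_cases u : (τ ≫ i) ≫ β = 0
    · obtain ⟨ψ, hψ⟩ := t.coy₂ _ u
      have := hT.isIso k.ab f (f := ψ) fun u' => nz (by rw [hψ, u', zero_comp])
      refine e₃ ((Category.id_comp p).symm.trans (e₂ _ ?_))
      rw [Category.id_comp, e₁, ← cancel_epi ψ, ← Category.assoc, ← hψ, Category.assoc, t'.fg,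
        comp_zero, comp_zero]
    · rcases hT.cases k.ab s with ⟨⟨e⟩⟩ | u'
      · exact absurd (by rw [← e.hom_inv_id_assoc (τ ≫ i), o' (e.inv ≫ _), comp_zero]) nz
      · exact absurd (x.orth_right u'.1 _) u
  have u := k.add t'.tr hA hB
  have u' := k.add r'' hI hQ
  rw [k.v_zero z, zero_add, k.v_Sx s.1 y] at u'
  have : j ≠ 0 := by
    rintro rfl
    have := k.mass hB zB
    rw [u', zero_smul, map_zero] at this
    linarith [k.pos]
  have : (0 : ℝ) < j := by exact_mod_cast Nat.pos_of_ne_zero this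
  have u₁ := congrArg θ u
  rw [w, u'] at u₁
  simp only [map_add, map_nsmul, nsmul_eq_mul] at u₁
  show θ (v A') < 0
  nlinarith

end K3

end Vale.Agent.P287T.Sw
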